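import Vale.Agent.P366Y.F.Defs
import Vale.Agent.P366Y.G.Scf

/-!
# P366Y, block F: the change of the unknown and the operator far away
-/

open MeasureTheory Metric Filter Topology Set
open scoped ContDiff ENNReal
open Vale.Agent.P366.Stmt Vale.Agent.P366Z

noncomputable section

namespace Vale.Agent.P366Y.F

namespace Chg

variable {n : ℕ}

theorem d2_mul {U w : E n → ℝ} (hU : Smooth U) (hw : Smooth w) (x : E n) (i j : Fin n) :
    D2 (fun y => U y * w y) x i j = U x * D2 w x i j + pd i U x * pd j w x + pd j U x * pd i w x +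
      w x * D2 U x i j := by
  have e : pd j (fun y => U y * w y) = fun y => pd j U y * w y + U y * pd j w y :=
    funext fun y => pd_mul (hU.diff y) (hw.diff y) j
  unfold D2
  rw [e, pd_add (((hU.pd j).diff x).fun_mul (hw.diff x)) ((hU.diff x).fun_mul ((hw.pd j).diff x)),
    pd_mul ((hU.pd j).diff x) (hw.diff x), pd_mul (hU.diff x) ((hw.pd j).diff x)]
  ring

theorem pr2_eu (v : E n → ℝ) (x : E n) : pr2 (eu n x) (D2 v x) = lap (eu n) v x := by
  rw [lap_eu]
  simp [pr2, eu, D2]

end Chg

open Chg in
theorem chg_of : EXP1 → CHG := by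
  intro h n m g U φ θ f v lm hg hU h0 hφ φ0 hf hv x
  have hw : Smooth fun y => v y / U y := ContDiff.div hv hU fun y => (h0 y).ne'
  have hu : Smooth fun y => 1 + v y / U y := ContDiff.add contDiff_const hw
  have p1 : ∀ i, pd i (fun y => 1 + v y / U y) = pd i fun y => v y / U y := fun i =>
    funext fun y => pd_const_add (f := fun y => v y / U y) 1 i
  have ev : v = fun y => U y * (v y / U y) := funext fun y => by
    have := (h0 y).ne'
    field_simp
  have q : ∀ i, qv U x (v x) (D1 v x) i = pd i (fun y => v y / U y) x := fun i => by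
    have := (h0 x).ne'
    rw [pd_div (hv.diff x) (hU.diff x) this]
    unfold qv D1
    field_simp
  have q' : qv U x (v x) (D1 v x) = D1 (fun y => 1 + v y / U y) x := funext fun i => by
    rw [q, ← p1]; rfl
  have d2 : ∀ i j, D2 v x i j = U x * D2 (fun y => v y / U y) x i j +
      pd i U x * pd j (fun y => v y / U y) x + pd j U x * pd i (fun y => v y / U y) x +
      v x / U x * D2 U x i j := fun i j => by
    have := d2_mul hU hw x i j
    rwa [← ev] at this
  have hs : ∀ i j, hess g (fun y => 1 + v y / U y) x i j = D2 (fun y => v y / U y) x i j -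
      ∑ k, chr g k i j x * pd k (fun y => v y / U y) x := fun i j => by
    unfold hess D2
    simp only [p1]
  have key : pr2 (av g U φ (x, D1 f x, v x)) (D2 v x) = ka U x * U x *
      pr2 (aa g φ x (D1 f x) (1 + v x / U x)) (hess g (fun y => 1 + v y / U y) x) +
      pr2 (av g U φ (x, D1 f x, v x)) fun i j =>
        U x * ∑ k, chr g k i j x * qv U x (v x) (D1 v x) k + pd i U x * qv U x (v x) (D1 v x) j +
          pd j U x * qv U x (v x) (D1 v x) i + v x / U x * D2 U x i j := by
    unfold pr2
    rw [Finset.mul_sum, ← Finset.sum_add_distrib]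
    refine Finset.sum_congr rfl fun i _ => ?_
    rw [Finset.mul_sum, ← Finset.sum_add_distrib]
    refine Finset.sum_congr rfl fun j _ => ?_
    simp only [q, d2, hs, av]
    ring
  have hf' : (fun i j => D2 f x i j - ∑ k, chr g k i j x * D1 f x k) = hess g f x := rfl
  rw [h n g φ f _ _ hg hφ φ0 hf hu x, key]
  unfold bv
  simp only [hf']
  rw [← q']
  ring

open Chg in
theorem farl : FARL := by
  intro n X φ f Λ u hX hu hf0 x hx
  have hn := hX.dim
  have n0 : 0 < n := by omega
  have U0 : ∀ y, 0 < X.U y := fun y => by linarith [(hX.Ub y).1]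
  have hR : X.R + 6 < ‖x‖ := by linarith [hX.Rρ]
  have ev : f =ᶠ[𝓝 x] fun _ => 0 := by
    filter_upwards [(isOpen_lt continuous_const continuous_norm).mem_nhds hR] with y hy
    exact hf0 y (le_of_lt hy)
  have evp : ∀ i, pd i f =ᶠ[𝓝 x] fun _ => 0 := fun i =>
    (pd_congr_ev ev i).trans (Eventually.of_forall fun y => pd_const 0 i y)
  have eg : gb X.g (fun y => φ (u y)) f =ᶠ[𝓝 x] X.g := by
    filter_upwards [eventually_all.2 evp] with y hy
    funext i j
    have := hy i
    simp only [gb, this, mul_zero, zero_mul, add_zero]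
  have l0 : lap (eu n) X.U x = 0 := by
    rw [← hX.flat.lap_eq' n0 hX.met hX.smU hx]; exact hX.harm x hx
  have s0 : scal X.g x = 0 := by
    have := Y.scf n X.g₀ X.U (fun _ => 1) x hn hX.met hX.smU U0 contDiff_const
    unfold cl at this
    simp only [mul_one, lap_const, mul_zero, zero_add, hX.harm x hx,
      hX.flat.scal_eq' n0 hX.met hx, zero_mul, add_zero] at this
    exact this
  have s1 : scal (gb X.g (fun y => φ (u y)) f) x = 0 := (scal_of_ev eg).trans s0
  refine ⟨(pr2_eu _ _).trans l0, funext fun i => (evp i).eq_of_nhds, ?_, s0, s1, ?_⟩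
  · funext i j
    exact (pd_congr (evp j) i).trans (pd_const 0 i x)
  · have hu1 : Smooth fun y => u y - 1 := ContDiff.sub hu contDiff_const
    have w1 : wl (eu n) X.U (fun y => u y - 1) x = wl (eu n) X.U u x := by
      rw [wl_eu, wl_eu]
      simp only [pd_sub_const]
    have l1 : lap X.g u x = X.U x ^ (-(n * bb n)) * wl (eu n) X.U u x := by
      rw [← hX.flat.wl_eq' n0 hX.met hX.smU hu hx]
      exact hX.met.lap_cf hn U0 u
    have g0 : gam n ≠ 0 := by linarith [one_lt_gam hn]
    have hx0 := (U0 x).ne'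
    have r0 := (Real.rpow_pos_of_pos (U0 x) (2 * bb n)).ne'
    have r1 : X.U x ^ (-(n * bb n)) = (X.U x ^ 2 * X.U x ^ (2 * bb n))⁻¹ := by
      rw [n_bb hn, Real.rpow_neg (U0 x).le, Real.rpow_add (U0 x), Real.rpow_two]
    rw [pr2_eu, met_eu.lap_mul_wl (hX.smU.c2 x) (hu1.c2 x) hx0, l0, w1]
    unfold nu ka
    rw [s1, lap_of_ev eg, l1, r1]
    field_simp
    ring

end Vale.Agent.P366Y.F
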