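import Vale.Agent.P366Y.F.Defs
import Vale.Agent.P366Z.Calc

/-!
# P366Y, block F: compositions, and the Hölder estimate under natural growth
-/

open MeasureTheory Metric Filter Topology Set
open scoped ContDiff ENNReal
open Vale.Agent.P366.Stmt Vale.Agent.P366Z

noncomputable section

namespace Vale.Agent.P366Y.F

theorem cmp : CMP := by
  intro n V V' _ _ _ _ _ Φ ρ M hΦ
  have := FiniteDimensional.proper_real V
  have hK := (isCompact_closedBall (0 : E n) (ρ + 1)).prod (isCompact_closedBall (0 : V) M)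
  obtain ⟨L₁, h1⟩ := hK.exists_bound_of_continuousOn hΦ.continuous.continuousOn
  obtain ⟨L₂, h2⟩ := hK.exists_bound_of_continuousOn
    (hΦ.continuous_fderiv one_ne_zero).continuousOn
  obtain ⟨L, L0, l1, l2⟩ : ∃ L, 0 ≤ L ∧ L₁ ≤ L ∧ L₂ ≤ L :=
    ⟨max 0 (max L₁ L₂), by simp, by simp, by simp⟩
  have mem : ∀ {x : E n} {w : V}, ‖x‖ ≤ ρ + 1 → ‖w‖ ≤ M →
      (x, w) ∈ closedBall (0 : E n) (ρ + 1) ×ˢ closedBall (0 : V) M := fun h k =>
    ⟨mem_closedBall_zero_iff.2 h, mem_closedBall_zero_iff.2 k⟩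
  have lip : ∀ {x x' w w'}, ‖x‖ ≤ ρ + 1 → ‖x'‖ ≤ ρ + 1 → ‖w‖ ≤ M → ‖w'‖ ≤ M →
      ‖Φ (x, w) - Φ (x', w')‖ ≤ L * (‖x - x'‖ + ‖w - w'‖) := fun k1 k2 k3 k4 =>
    (Convex.norm_image_sub_le_of_norm_fderiv_le (𝕜 := ℝ)
      (fun z _ => hΦ.differentiable one_ne_zero z) (fun z hz => (h2 z hz).trans l2)
      ((convex_closedBall _ _).prod (convex_closedBall _ _)) (mem k2 k4) (mem k1 k3)).trans
      (mul_le_mul_of_nonneg_left (max_le_add_of_nonneg (norm_nonneg _) (norm_nonneg _)) L0)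
  have a1 := mul_nonneg L0 (abs_nonneg M)
  have a2 : L ≤ 2 * L * (1 + |M|) := by linarith
  refine ⟨2 * L * (1 + |M|), by positivity, fun x x' w w' k1 k2 k3 k4 =>
    ⟨(h1 _ (mem k1 k3)).trans (l1.trans a2), (h2 _ (mem k1 k3)).trans (l2.trans a2),
      (lip k1 k2 k3 k4).trans (mul_le_mul_of_nonneg_right a2 (by positivity))⟩,
    fun α hα y c hy hc => ?_⟩
  have c0 := norm_nonneg c
  have s : ∀ x, ‖Φ (x, y x)‖ ≤ L ∨ Φ (x, y x) = c := fun x => (le_total ‖x‖ (ρ + 1)).imp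
    (fun k => (h1 _ (mem k (hy.1 x))).trans l1) fun k => hc x (by linarith)
  refine ⟨fun x => (s x).elim (fun k => by linarith) fun k => by simp only [k]; linarith,
    fun x x' => ?_⟩
  beta_reduce
  have d0 := Real.rpow_nonneg (norm_nonneg (x - x')) α
  rcases le_total 1 ‖x - x'‖ with h | h
  · refine le_trans ?_ (le_mul_of_one_le_right (by positivity) (Real.one_le_rpow h hα.1.le))
    have := norm_sub_le (Φ (x, y x)) (Φ (x', y x'))
    rcases s x with k | k <;> rcases s x' with k' | k'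
    · linarith
    · rw [k'] at this ⊢; linarith
    · rw [k] at this ⊢; linarith
    · rw [k, k', sub_self, norm_zero]; positivity
  by_cases k : ‖x‖ ≤ ρ + 1 ∧ ‖x'‖ ≤ ρ + 1
  · have k1 : ‖x - x'‖ ≤ ‖x - x'‖ ^ α := Real.self_le_rpow_of_le_one (norm_nonneg _) h hα.2.le
    have k2 := (hy.2 x x').trans (mul_le_mul_of_nonneg_right (le_abs_self M) d0)
    have k3 := mul_le_mul_of_nonneg_left (add_le_add k1 k2) L0
    refine ((lip k.1 k.2 (hy.1 x) (hy.1 x')).trans k3).trans ?_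
    nlinarith [mul_nonneg a1 d0, mul_nonneg L0 d0, mul_nonneg c0 d0]
  · have k1 := norm_sub_norm_le x x'
    have k2 := norm_sub_norm_le x' x
    rw [norm_sub_rev] at k2
    have k3 : ρ ≤ ‖x‖ ∧ ρ ≤ ‖x'‖ := by
      rcases not_and_or.1 k with k | k <;> constructor <;> linarith [not_le.1 k]
    rw [hc x k3.1, hc x' k3.2, sub_self, norm_zero]
    positivity

theorem nho_of (hC : CAC2) (hD : DGO) : NHO := by
  intro n Λ K hn
  obtain ⟨γ, C, C0, hC⟩ := hC n Λ K
  obtain ⟨θ, hθ, C', C1, hD⟩ := hD n γ hn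
  refine ⟨θ, hθ, C' * (K + C / 1 * 1) + 4 * K, fun a v ha hv h => ?_⟩
  have K0 : 0 ≤ K := (abs_nonneg _).trans (h 0).2.1
  have a1 : 0 ≤ C' * (K + C / 1 * 1) := by positivity
  refine ⟨fun x => (h x).2.1.trans (by linarith), fun x y => ?_⟩
  have d0 := Real.rpow_nonneg (norm_nonneg (x - y)) θ
  rcases lt_or_ge ‖x - y‖ (1 / 2) with k | k
  · have e1 : ∀ z, D1 (fun y => -v y) z = -D1 v z := fun z => funext fun i => pd_neg i
    have e2' : ∀ z, pr2 (a z) (D2 (fun y => -v y) z) = -pr2 (a z) (D2 v z) := fun z => by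
      have : ∀ j, (pd j fun y => -v y) = fun y => -pd j v y := fun j => funext fun y => pd_neg j
      simp [pr2, D2, this, pd_neg]
    have := hD (C / 1) K 1 v x one_pos (by positivity) (hv.of_le (by norm_num))
      (fun z _ => (h z).2.1)
      (hC a v x 1 one_pos ha hv fun z _ => ⟨(h z).1, (h z).2.1, by simpa using (h z).2.2.1,
        by simpa using neg_le_of_abs_le (h z).2.2.2⟩)
      (hC a _ x 1 one_pos ha hv.neg fun z _ => ⟨(h z).1, by simpa using (h z).2.1,
        by simpa [e1] using (h z).2.2.1,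
        by simpa [e1, e2', e2] using le_of_abs_le (h z).2.2.2⟩)
      x (mem_ball_self (by norm_num)) y (by rwa [mem_ball, dist_eq_norm, norm_sub_rev])
    rw [div_one ‖x - y‖] at this
    exact this.trans (mul_le_mul_of_nonneg_right (by linarith) d0)
  · have k1 : 1 / 2 ≤ ‖x - y‖ ^ θ := (Real.self_le_rpow_of_le_one (by norm_num) (by norm_num)
      hθ.2.le).trans (Real.rpow_le_rpow (by norm_num) k hθ.1.le)
    have k2 := (norm_sub_le (v x) (v y)).trans (add_le_add (h x).2.1 (h y).2.1)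
    nlinarith [mul_nonneg a1 d0, mul_le_mul_of_nonneg_left k1 K0]

end Vale.Agent.P366Y.F
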