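import Vale.Agent.P366Y.F.Defs
import Vale.Agent.P366Z.Calc2

/-!
# P366Y, block F: ellipticity
-/

open MeasureTheory Metric Filter Topology Set
open scoped ContDiff ENNReal
open Vale.Agent.P366.Stmt Vale.Agent.P366Z

noncomputable section

namespace Vale.Agent.P366Y.F

variable {n : ℕ}

theorem Tr_pos (z : ℝ) : 0 < Tr z := by
  unfold Tr
  by_cases h : 4 * z - 1 ≤ 0
  · rw [Real.smoothTransition.zero_of_nonpos h]
    norm_num
  · have h0 := Real.smoothTransition.nonneg (4 * z - 1)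
    have h1 := Real.smoothTransition.le_one (4 * z - 1)
    nlinarith [mul_nonneg h0 (not_le.1 h).le]

theorem Tr_eq {z : ℝ} (h : 1 / 2 ≤ z) : Tr z = z := by
  unfold Tr
  rw [Real.smoothTransition.one_of_one_le (by linarith)]
  ring

namespace Ell

theorem sum_bd {a b : Vc n} {A B : ℝ} (ha : ∀ i, |a i| ≤ A) (hb : ∀ i, |b i| ≤ B) :
    |∑ i, a i * b i| ≤ n * (A * B) := by
  refine (Finset.abs_sum_le_sum_abs _ _).trans ?_
  refine (Finset.sum_le_card_nsmul _ _ (A * B) fun i _ => ?_).trans_eq ?_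
  · rw [abs_mul]
    exact mul_le_mul (ha i) (hb i) (abs_nonneg _) ((abs_nonneg _).trans (ha i))
  · rw [Finset.card_univ, Fintype.card_fin, nsmul_eq_mul]

theorem entry {u P Q s φ τ γ k K B S C : ℝ} (hu : |u| ≤ K) (hP : |P| ≤ B) (hQ : |Q| ≤ B)
    (s0 : 0 ≤ s) (s1 : s ≤ S) (φ0 : 0 < φ) (φ1 : φ ≤ C) (τ0 : 0 ≤ τ) (τ1 : τ ≤ 2 * C * C)
    (γ1 : 1 ≤ γ) (γ2 : γ ≤ 8) (k0 : 0 < k) (k1 : k ≤ K) :
    |k * (γ * (u - φ ^ 2 * P * Q / (1 + φ ^ 2 * s)) + τ * (s * u - P * Q) / (1 + φ ^ 2 * s))| ≤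
      K * (8 * (K + C ^ 2 * (B * B)) + 2 * C * C * (S * K + B * B)) := by
  have d1 : 1 ≤ 1 + φ ^ 2 * s := le_add_of_nonneg_right (by positivity)
  have dv : ∀ y : ℝ, |y / (1 + φ ^ 2 * s)| ≤ |y| := fun y => by
    rw [abs_div, abs_of_pos (one_pos.trans_le d1)]
    exact div_le_self (abs_nonneg _) d1
  have b0 : 0 ≤ B := (abs_nonneg _).trans hP
  have pq : |P * Q| ≤ B * B := by
    rw [abs_mul]
    exact mul_le_mul hP hQ (abs_nonneg _) b0
  have a1 : |u - φ ^ 2 * P * Q / (1 + φ ^ 2 * s)| ≤ K + C ^ 2 * (B * B) := by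
    refine (abs_sub _ _).trans (add_le_add hu ((dv _).trans ?_))
    rw [mul_assoc, abs_mul, abs_of_nonneg (sq_nonneg φ)]
    exact mul_le_mul (pow_le_pow_left₀ φ0.le φ1 2) pq (abs_nonneg _) (sq_nonneg _)
  have a2 : |s * u - P * Q| ≤ S * K + B * B := by
    refine (abs_sub _ _).trans (add_le_add ?_ pq)
    rw [abs_mul, abs_of_nonneg s0]
    exact mul_le_mul s1 hu (abs_nonneg _) (s0.trans s1)
  rw [abs_mul, abs_of_pos k0]
  refine mul_le_mul k1 ((abs_add_le _ _).trans (add_le_add ?_ ((dv _).trans ?_))) (abs_nonneg _)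
    (k0.le.trans k1)
  · rw [abs_mul, abs_of_pos (one_pos.trans_le γ1)]
    exact mul_le_mul γ2 a1 (abs_nonneg _) (by norm_num)
  · rw [abs_mul, abs_of_nonneg τ0]
    exact mul_le_mul τ1 a2 (abs_nonneg _) (τ0.trans τ1)

theorem form {e Q t s φ τ γ k K S C L : ℝ} (lo : e ≤ K * Q) (Q0 : 0 ≤ Q) (cs : t ^ 2 ≤ Q * s)
    (s0 : 0 ≤ s) (s1 : s ≤ S) (φ0 : 0 < φ) (φ1 : φ ≤ C) (τ0 : 0 ≤ τ) (γ1 : 1 ≤ γ) (k0 : 0 < k)
    (k1 : k ≤ K) (k2 : 1 ≤ K * (k * γ)) (hL : K * K * (1 + C ^ 2 * S) ≤ L) :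
    e ≤ L * (k * (γ * (Q - φ ^ 2 * t ^ 2 / (1 + φ ^ 2 * s)) +
      τ * (s * Q - t ^ 2) / (1 + φ ^ 2 * s))) := by
  have d0 : 0 < 1 + φ ^ 2 * s := by positivity
  have K0 : 0 < K := k0.trans_le k1
  have d1 : 1 + φ ^ 2 * s ≤ 1 + C ^ 2 * S :=
    add_le_add le_rfl (mul_le_mul (pow_le_pow_left₀ φ0.le φ1 2) s1 s0 (sq_nonneg _))
  have a1 : Q / (1 + φ ^ 2 * s) ≤ Q - φ ^ 2 * t ^ 2 / (1 + φ ^ 2 * s) := by
    rw [le_sub_iff_add_le, ← add_div, div_le_iff₀ d0]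
    nlinarith [mul_le_mul_of_nonneg_left cs (sq_nonneg φ)]
  have a2 : 0 ≤ τ * (s * Q - t ^ 2) / (1 + φ ^ 2 * s) :=
    div_nonneg (mul_nonneg τ0 (by linarith [mul_comm s Q])) d0.le
  have a3 : k * (γ * (Q / (1 + φ ^ 2 * s))) ≤ k * (γ * (Q - φ ^ 2 * t ^ 2 / (1 + φ ^ 2 * s)) +
      τ * (s * Q - t ^ 2) / (1 + φ ^ 2 * s)) :=
    mul_le_mul_of_nonneg_left ((mul_le_mul_of_nonneg_left a1 (by linarith)).trans
      (le_add_of_nonneg_right a2)) k0.le
  have a4 : K * K * (1 + φ ^ 2 * s) ≤ L :=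
    (mul_le_mul_of_nonneg_left d1 (by positivity)).trans hL
  refine le_trans ?_ (mul_le_mul a4 a3 (by positivity) (le_trans (by positivity) a4))
  have a5 : K * K * (1 + φ ^ 2 * s) * (k * (γ * (Q / (1 + φ ^ 2 * s)))) =
      K * Q * (K * (k * γ)) := by field_simp
  rw [a5]
  exact lo.trans (le_mul_of_one_le_right (by positivity) k2)

theorem core {g : Field n} {x : E n} {p : Vc n} {K A C φ τ γ k : ℝ} (hg : Met g)
    (bd : ∀ i j, |up g i j x| ≤ K) (lo : ∀ ξ, e2 ξ ≤ K * sq g x ξ) (hp : ∀ i, |p i| ≤ A)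
    (φ0 : 0 < φ) (φ1 : φ ≤ C) (τ0 : 0 ≤ τ) (τ1 : τ ≤ 2 * C * C) (γ1 : 1 ≤ γ) (γ2 : γ ≤ 8)
    (k0 : 0 < k) (k1 : k ≤ K) (k2 : 1 ≤ K * (k * γ)) :
    El (max (K * (8 * (K + C ^ 2 * (n * (K * A) * (n * (K * A)))) +
        2 * C * C * (n * (A * (n * (K * A))) * K + n * (K * A) * (n * (K * A)))))
      (K * K * (1 + C ^ 2 * (n * (A * (n * (K * A))))))) fun i j =>
      k * (γ * (up g i j x - φ ^ 2 * rs g x p i * rs g x p j / (1 + φ ^ 2 * sq g x p)) +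
        τ * (sq g x p * up g i j x - rs g x p i * rs g x p j) / (1 + φ ^ 2 * sq g x p)) := by
  have hP : ∀ i, |rs g x p i| ≤ n * (K * A) := fun i => sum_bd (bd i) hp
  have e1 : ∀ ξ : Vc n, ∑ i, ∑ j, up g i j x * ξ i * p j = ∑ i, ξ i * rs g x p i := fun ξ =>
    Finset.sum_congr rfl fun i _ => by
      rw [rs, Finset.mul_sum]
      exact Finset.sum_congr rfl fun j _ => by ring
  have s0 : 0 ≤ sq g x p := hg.up_nonneg x p
  have s1 : sq g x p ≤ n * (A * (n * (K * A))) :=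
    (e1 p).trans_le ((le_abs_self _).trans (sum_bd hp hP))
  refine ⟨fun i j => ?_, fun i j => (entry (bd i j) (hP i) (hP j) s0 s1 φ0 φ1 τ0 τ1 γ1 γ2 k0
    k1).trans (le_max_left _ _), fun ξ => ?_⟩
  · beta_reduce
    rw [hg.up_sy i j]
    ring
  · refine (form (lo ξ) (hg.up_nonneg x ξ) (e1 ξ ▸ hg.up_cs x ξ p) s0 s1 φ0 φ1 τ0 γ1 k0 k1 k2
      (le_max_right _ _)).trans_eq (congrArg _ ?_)
    generalize rs g x p = P
    generalize sq g x p = s
    generalize 1 + φ ^ 2 * s = d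
    have e2 : ∀ i j, k * (γ * (up g i j x - φ ^ 2 * P i * P j / d) +
        τ * (s * up g i j x - P i * P j) / d) * ξ i * ξ j =
        k * (γ + τ * s / d) * (up g i j x * ξ i * ξ j) -
          k * (γ * φ ^ 2 / d + τ / d) * (ξ i * P i * (ξ j * P j)) := fun i j => by ring
    simp only [e2, Finset.sum_sub_distrib, ← Finset.mul_sum, ← Finset.sum_mul]
    unfold sq
    ring

end Ell

theorem ell : ELL := by
  intro n X φ A h ⟨c, c0, C, hC⟩
  have U0 : ∀ x, 0 < X.U x := fun x => by linarith [(h.Ub x).1]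
  have g1 := one_lt_gam h.dim
  have g2 := gam_le h.dim
  have b0 : 0 ≤ 2 * bb n := by linarith [bb_pos h.dim]
  have κ0 : ∀ x, 0 < X.U x ^ (2 * bb n) := fun x => Real.rpow_pos_of_pos (U0 x) _
  have hu : ∀ x i j, up X.g i j x = (X.U x ^ (2 * bb n))⁻¹ * up X.g₀ i j x := fun x i j => by
    rw [← Real.rpow_neg (U0 x).le]
    exact h.met.up_cf (U0 x) i j
  refine ⟨?_, fun x y hx => funext fun i => funext fun j => ?_⟩
  · obtain ⟨Λ, hΛ⟩ := h.met.ell h.flat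
    have l0 : (0 : ℝ) < (3 / 4) ^ (2 * bb n) := by positivity
    obtain ⟨M, M1, M2, M3⟩ : ∃ M : ℝ, 1 ≤ M ∧ (∀ x, X.U x ^ (2 * bb n) ≤ M) ∧
        ∀ x, (X.U x ^ (2 * bb n))⁻¹ ≤ M :=
      ⟨max 1 (max ((9 / 8) ^ (2 * bb n)) ((3 / 4) ^ (2 * bb n))⁻¹), le_max_left _ _,
        fun x => (Real.rpow_le_rpow (U0 x).le (h.Ub x).2 b0).trans
          ((le_max_left _ _).trans (le_max_right _ _)),
        fun x => (inv_anti₀ l0 (Real.rpow_le_rpow (by norm_num) (h.Ub x).1 b0)).trans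
          ((le_max_right _ _).trans (le_max_right _ _))⟩
    have L1 := hΛ.one
    have ML : M ≤ M * Λ := le_mul_of_one_le_right (by linarith) L1
    refine ⟨_, fun x p y hp => Ell.core (K := M * Λ) (A := A) (C := C) (h.met.cf h.smU U0)
      (fun i j => ?_) (fun ξ => ?_) (fun i => (norm_le_pi_norm p i).trans hp)
      (c0.trans_le (hC _).1) (hC _).2.1 ?_ ?_ (by linarith) (by linarith)
      (div_pos (κ0 x) (by linarith)) ?_ ?_⟩
    · rw [hu x i j, abs_mul, abs_of_pos (inv_pos.2 (κ0 x))]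
      exact mul_le_mul (M3 x) (hΛ.up_bd x i j).1 (abs_nonneg _) (by linarith)
    · have e : ∑ i, ∑ j, up X.g₀ i j x * ξ i * ξ j =
          X.U x ^ (2 * bb n) * sq (cf X.U X.g₀) x ξ := by
        have e0 : ∀ i j, up (cf X.U X.g₀) i j x = _ := hu x
        simp only [sq, e0, mul_assoc, ← Finset.mul_sum]
        rw [mul_inv_cancel_left₀ (κ0 x).ne']
      refine (hΛ.up_lo x ξ).trans ?_
      rw [e, ← mul_assoc, mul_comm Λ]
      exact mul_le_mul_of_nonneg_right (mul_le_mul_of_nonneg_right (M2 x) (by linarith))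
        ((h.met.cf h.smU U0).up_nonneg x ξ)
    · exact mul_nonneg (mul_nonneg (mul_nonneg two_pos.le (Tr_pos _).le)
        (c0.trans_le (hC _).1).le) (hC _).2.2.1
    · generalize 1 + y / X.U x = z
      obtain ⟨a1, a2, a3, a4⟩ := hC z
      have := mul_le_mul a2 a4 (mul_nonneg (Tr_pos z).le a3) ((c0.trans_le a1).le.trans a2)
      linarith
    · exact ((div_le_self (κ0 x).le (by linarith)).trans (M2 x)).trans ML
    · rw [ka, div_mul_cancel₀ _ (show 4 * gam n ≠ 0 by linarith)]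
      have := mul_le_mul_of_nonneg_right ((M3 x).trans ML) (κ0 x).le
      rwa [inv_mul_cancel₀ (κ0 x).ne'] at this
  · have e : up X.g₀ i j x = eu n x i j := (up_of_eq (h.flat x hx) i j).trans (up_eu i j x)
    have := (κ0 x).ne'
    have : gam n ≠ 0 := by linarith
    simp only [av, aa, ka, rs, sq, Pi.zero_apply, mul_zero, Finset.sum_const_zero, zero_mul,
      zero_div, sub_zero, add_zero, hu, e]
    field_simp

end Vale.Agent.P366Y.F
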