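import Vale.Agent.P366Y.F.Defs
import Vale.Agent.P366Y.J.Touch
import Vale.Agent.P366Z.Calc3

/-!
# P366Y, block F: the operator is quasilinear
-/

open MeasureTheory Metric Filter Topology Set
open scoped ContDiff ENNReal
open Vale.Agent.P366.Stmt Vale.Agent.P366Z
open Vale.Agent.P366Y.C (ww b2 n1)

noncomputable section

namespace Vale.Agent.P366Y.F

namespace Exp1H

variable {n : ℕ} {g : Field n} {w f u : E n → ℝ} {x : E n}

theorem b2_eq (T : Field n) (u v : E n → ℝ) :
    ∑ i, (∑ j, T x i j * gr g v j x) * gr g u i x = b2 g T u v x :=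
  Finset.sum_congr rfl fun i _ => by
    rw [Finset.sum_mul]
    exact Finset.sum_congr rfl fun j _ => mul_right_comm _ _ _

theorem b2_sy {T : Field n} (h : ∀ i j, T x i j = T x j i) (u v : E n → ℝ) :
    b2 g T u v x = b2 g T v u x := by
  rw [b2, Finset.sum_comm]
  exact Finset.sum_congr rfl fun i _ => Finset.sum_congr rfl fun j _ => by
    rw [h, mul_right_comm]

/-- the Laplacian of the metric `gb` -/
theorem lap_gb (hG : C.GB) (hg : Met g) (hw : Smooth w) (hf : Smooth f) (hu : Smooth u) {d : ℝ}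
    (hd : ∀ i, pd i w x = d * pd i u x) : lap (gb g w f) u x = lap g u x +
      (w x * d * (ip g f f x * ip g u u x - 2 * ip g f u x ^ 2) - w x ^ 2 * ip g f u x * lap g f x -
        w x ^ 2 * b2 g (hess g u) f f x) / ww g w f x ^ 2 +
      (w x ^ 3 * d * ip g f f x * ip g f u x ^ 2 + w x ^ 4 * ip g f u x * b2 g (hess g f) f f x) /
        (ww g w f x ^ 2) ^ 2 := by
  obtain ⟨-, sW, -, hb⟩ := hG n g w f hg hw hf
  have w0 : ∀ y, ww g w f y ≠ 0 := fun y => (one_pos.trans_le (hb y).1).ne'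
  have s1 : Smooth fun y => w y ^ 2 := ContDiff.pow hw 2
  have s2 : Smooth fun y => w y ^ 2 * ip g f u y := ContDiff.mul s1 (hg.sm_ip hf hu)
  have s3 : Smooth fun y => -(w y ^ 2 * ip g f u y / ww g w f y) :=
    ContDiff.neg (ContDiff.div s2 sW w0)
  have e : (fun i y => ww g w f y * gr (C.gb g w f) u i y) = fun i y =>
      ww g w f y * gr g u i y + -(w y ^ 2 * ip g f u y / ww g w f y) * gr g f i y := by
    funext i y
    have := w0 y
    rw [(hb y).2.2.2.2.1]
    field_simp
    ring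
  have e1 : ∀ i, pd i (ww g w f) x = (w x * d * ip g f f x * pd i u x +
      w x ^ 2 * ∑ j, hess g f x i j * gr g f j x) / ww g w f x := fun i => by
    have := pd_pow (sW.diff x) 2 i
    rw [funext fun y => (hb y).2.1, pd_const_add, pd_mul (s1.diff x) ((hg.sm_ip hf hf).diff x),
      pd_pow (hw.diff x), hg.pd_ip (hf.c2 x) (hf.c2 x), hd] at this
    rw [eq_div_iff (w0 x)]
    push_cast at this
    linear_combination -this / 2
  have e2 : ∀ v, ∑ i, pd i (ww g w f) x * gr g v i x =
      (w x * d * ip g f f x * ip g u v x + w x ^ 2 * b2 g (hess g f) v f x) / ww g w f x :=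
    fun v => by
      rw [← b2_eq, ip_eq_gr g u, Finset.mul_sum, Finset.mul_sum, ← Finset.sum_add_distrib,
        Finset.sum_div]
      exact Finset.sum_congr rfl fun i _ => by rw [e1]; ring
  have e3 : ∑ i, pd i (fun y => -(w y ^ 2 * ip g f u y / ww g w f y)) x * gr g f i x =
      -(2 * w x * d * ip g f u x / ww g w f x) * ip g u f x -
        w x ^ 2 / ww g w f x * b2 g (hess g f) f u x - w x ^ 2 / ww g w f x * b2 g (hess g u) f f x +
        w x ^ 2 * ip g f u x / ww g w f x ^ 2 * ∑ i, pd i (ww g w f) x * gr g f i x := by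
    rw [← b2_eq, ← b2_eq, ip_eq_gr g u, Finset.mul_sum, Finset.mul_sum, Finset.mul_sum,
      Finset.mul_sum, ← Finset.sum_sub_distrib, ← Finset.sum_sub_distrib, ← Finset.sum_add_distrib]
    refine Finset.sum_congr rfl fun i _ => ?_
    have := w0 x
    rw [pd_neg, pd_div (s2.diff x) (sW.diff x) this, pd_mul (s1.diff x) ((hg.sm_ip hf hu).diff x),
      pd_pow (hw.diff x), hg.pd_ip (hf.c2 x) (hu.c2 x), hd]
    push_cast
    field_simp
    ring
  have := w0 x
  change dv (C.gb g w f) (gr (C.gb g w f) u) x = _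
  rw [(hb x).2.2.2.2.2.2, e, hg.dv_add (fun i => (sW.diff x).fun_mul ((hg.sm_gr hu i).diff x))
    fun i => (s3.diff x).fun_mul ((hg.sm_gr hf i).diff x),
    hg.dv_smul (sW.diff x) fun i => (hg.sm_gr hu i).diff x,
    hg.dv_smul (s3.diff x) fun i => (hg.sm_gr hf i).diff x, e3, e2, e2, hg.ip_sy u f,
    b2_sy (hg.hess_sy (hf.c2 x)) u f]
  change (_ * lap g u x + _ + (_ * lap g f x + _)) / _ = _
  field_simp
  ring

end Exp1H

open Exp1H

/-- **row EXP1** -/
theorem exp1_of (hG : C.GB) (hR : C.RB) : EXP1 := by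
  intro n g φ f Λ u hg hφ h0 hf hu x
  have hw : Smooth fun y => φ (u y) := hφ.comp hu
  obtain ⟨d1, d2, -⟩ := J.hcp n g φ u x hφ hu
  have hd : ∀ i, pd i (fun y => φ (u y)) x = deriv φ (u x) * pd i u x := congrFun d1
  have e0 : bx g φ x (D1 f x) (hess g f x) (Λ x) (u x) (D1 u x) =
      bp (gam n) (Tr (u x)) (φ (u x)) (deriv φ (u x)) (deriv (deriv φ) (u x)) (scal g x - Λ x)
        (ip g f f x) (tr g (hess g f) x) (normSq g (hess g f) x) (b2 g (hess g f) f f x)
        (n1 g (hess g f) f x) (b2 g (C.rc g) f f x) (ip g f u x) (b2 g (hess g f) u f x)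
        (ip g u u x) := rfl
  have e1 : pr2 (aa g φ x (D1 f x) (u x)) (hess g u x) =
      (4 * gam n + 2 * Tr (u x) * φ (u x) * deriv φ (u x) * ip g f f x /
        (1 + φ (u x) ^ 2 * ip g f f x)) * tr g (hess g u) x -
      (4 * gam n * φ (u x) ^ 2 + 2 * Tr (u x) * φ (u x) * deriv φ (u x)) /
        (1 + φ (u x) ^ 2 * ip g f f x) * b2 g (hess g u) f f x := by
    simp only [tr, b2, Finset.mul_sum, ← Finset.sum_sub_distrib]
    refine Finset.sum_congr rfl fun i _ => Finset.sum_congr rfl fun j _ => ?_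
    change (4 * gam n * (_ - _ * gr g f i x * gr g f j x / (1 + _ * ip g f f x)) +
      _ * (ip g f f x * _ - gr g f i x * gr g f j x) / (1 + _ * ip g f f x)) * _ = _
    ring
  have e2 : ip g (fun y => φ (u y)) f x = deriv φ (u x) * ip g f u x := by
    rw [ip_of_pd hd (v' := f) (t := 1) fun i => (one_mul _).symm, hg.ip_sy, mul_one]
  have e3 : b2 g (hess g f) (fun y => φ (u y)) f x = deriv φ (u x) * b2 g (hess g f) u f x := by
    simp only [b2, gr, hd, Finset.mul_sum, Finset.sum_mul]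
    exact Finset.sum_congr rfl fun _ _ => Finset.sum_congr rfl fun _ _ =>
      Finset.sum_congr rfl fun _ _ => Finset.sum_congr rfl fun _ _ => by ring
  have e4 : b2 g (hess g fun y => φ (u y)) f f x =
      deriv (deriv φ) (u x) * ip g f u x ^ 2 + deriv φ (u x) * b2 g (hess g u) f f x := by
    rw [hg.ip_sy, ip_eq_gr, pow_two, Finset.sum_mul_sum]
    simp only [b2, d2, D1, Finset.mul_sum, ← Finset.sum_add_distrib]
    exact Finset.sum_congr rfl fun _ _ => Finset.sum_congr rfl fun _ _ => by ring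
  rw [e0, e1, nu, lap_gb hG hg hw hf hu hd,
    show scal (gb g _ f) x = _ from hR n g _ f hg hw hf (fun y => h0 _) x, C.rb, e2, e3, e4,
    ip_of_pd hd hd, hg.lap_comp (hu.c2 x) (hφ.contDiffAt.of_le (by norm_cast)),
    show ww g (fun y => φ (u y)) f x ^ 4 = (ww g (fun y => φ (u y)) f x ^ 2) ^ 2 by ring,
    ((hG n g _ f hg hw hf).2.2.2 x).2.1, ← hg.lap_eq_tr (hf.c2 x), ← hg.lap_eq_tr (hu.c2 x), bp]
  generalize 1 + φ (u x) ^ 2 * ip g f f x = D
  ring

end Vale.Agent.P366Y.F
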