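import Vale.Agent.P366Y.F.Defs
import Vale.Agent.P366Z.Calc

/-!
# P366Y, block F: JET, the right hand side is a quadratic polynomial with smooth coefficients
-/

open scoped ContDiff
open Vale.Agent.P366.Stmt Vale.Agent.P366Z

noncomputable section

namespace Vale.Agent.P366Y.F

namespace JetH

variable {n : ℕ} {Y : Type} [NormedAddCommGroup Y] [NormedSpace ℝ Y] {F G : Y → Vc n → ℝ}
  {c : Y → ℝ} {ι : Type} [Fintype ι]

/-- affine functions with smooth coefficients -/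
def Q1 (F : Y → Vc n → ℝ) : Prop :=
  ∃ B : Y → ℝ × Vc n, ContDiff ℝ ∞ B ∧ ∀ w q, (B w).1 + ∑ i, (B w).2 i * q i = F w q

/-- quadratic functions with smooth coefficients -/
def Q2 (F : Y → Vc n → ℝ) : Prop :=
  ∃ B : Y → ℝ × Vc n × Mx n, ContDiff ℝ ∞ B ∧ ∀ w q, qd (B w) q = F w q

theorem Q1.const (h : ContDiff ℝ ∞ c) : Q1 fun w (_ : Vc n) => c w :=
  ⟨fun w => (c w, 0), h.prodMk contDiff_const, fun w q => by simp⟩

theorem Q1.coord (i : Fin n) : Q1 fun (_ : Y) (q : Vc n) => q i :=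
  ⟨fun _ => (0, Pi.single i 1), contDiff_const, fun w q => by simp [Pi.single_apply]⟩

theorem Q1.add (h : Q1 F) (k : Q1 G) : Q1 fun w q => F w q + G w q :=
  let ⟨B, a, b⟩ := h
  let ⟨B', a', b'⟩ := k
  ⟨fun w => B w + B' w, a.add a', fun w q => by
    simp only [← b, ← b', Prod.fst_add, Prod.snd_add, Pi.add_apply, add_mul,
      Finset.sum_add_distrib]
    ring⟩

theorem Q1.smul (hc : ContDiff ℝ ∞ c) (h : Q1 F) : Q1 fun w q => c w * F w q :=
  let ⟨B, a, b⟩ := h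
  ⟨fun w => c w • B w, hc.smul a, fun w q => by
    simp only [← b, Prod.smul_fst, Prod.smul_snd, Pi.smul_apply, smul_eq_mul, mul_add,
      Finset.mul_sum, mul_assoc]⟩

theorem Q1.smul' (h : Q1 F) (hc : ContDiff ℝ ∞ c) : Q1 fun w q => F w q * c w := by
  simpa only [mul_comm] using h.smul hc

theorem Q1.sum {H : ι → Y → Vc n → ℝ} (h : ∀ l, Q1 (H l)) : Q1 fun w q => ∑ l, H l w q := by
  choose B a b using h
  exact ⟨fun w => ∑ l, B l w, ContDiff.sum fun l _ => a l, fun w q => by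
    simp only [← b, Prod.fst_sum, Prod.snd_sum, Finset.sum_apply, Finset.sum_mul,
      Finset.sum_add_distrib]
    rw [Finset.sum_comm]⟩

theorem Q1.mul (h : Q1 F) (k : Q1 G) : Q2 fun w q => F w q * G w q :=
  let ⟨B, a, b⟩ := h
  let ⟨B', a', b'⟩ := k
  ⟨fun w => ((B w).1 * (B' w).1, (B w).1 • (B' w).2 + (B' w).1 • (B w).2,
      fun i j => (B w).2 i * (B' w).2 j), by fun_prop, fun w q => by
    have e : ∑ i, ∑ j, (B w).2 i * (B' w).2 j * q i * q j =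
        (∑ i, (B w).2 i * q i) * ∑ j, (B' w).2 j * q j := by
      rw [Finset.sum_mul_sum]
      exact Finset.sum_congr rfl fun i _ => Finset.sum_congr rfl fun j _ => by ring
    rw [qd, e]
    simp only [← b, ← b', Pi.add_apply, Pi.smul_apply, smul_eq_mul, add_mul, mul_assoc,
      Finset.sum_add_distrib, ← Finset.mul_sum]
    ring⟩

theorem Q1.two (h : Q1 F) : Q2 F := by
  simpa only [mul_one] using h.mul (.const (c := fun _ => 1) contDiff_const)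

theorem Q2.add (h : Q2 F) (k : Q2 G) : Q2 fun w q => F w q + G w q :=
  let ⟨B, a, b⟩ := h
  let ⟨B', a', b'⟩ := k
  ⟨fun w => B w + B' w, a.add a', fun w q => by
    simp only [← b, ← b', qd, Prod.fst_add, Prod.snd_add, Pi.add_apply, add_mul,
      Finset.sum_add_distrib]
    ring⟩

theorem Q2.smul (hc : ContDiff ℝ ∞ c) (h : Q2 F) : Q2 fun w q => c w * F w q :=
  let ⟨B, a, b⟩ := h
  ⟨fun w => c w • B w, hc.smul a, fun w q => by
    simp only [← b, qd, Prod.smul_fst, Prod.smul_snd, Pi.smul_apply, smul_eq_mul, mul_add,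
      Finset.mul_sum, mul_assoc]⟩

theorem Q2.sum {H : ι → Y → Vc n → ℝ} (h : ∀ l, Q2 (H l)) : Q2 fun w q => ∑ l, H l w q := by
  choose B a b using h
  exact ⟨fun w => ∑ l, B l w, ContDiff.sum fun l _ => a l, fun w q => by
    simp only [← b, qd, Prod.fst_sum, Prod.snd_sum, Finset.sum_apply, Finset.sum_mul,
      Finset.sum_add_distrib]
    rw [Finset.sum_comm, Finset.sum_comm (f := fun l i => ∑ j, (B l w).2.2 i j * q i * q j)]
    exact congrArg _ (Finset.sum_congr rfl fun i _ => Finset.sum_comm)⟩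

theorem bp_eq (γ T φ φ₁ φ₂ R s L SS Sf n₁ Rf t r m : ℝ) (b : ℝ → ℝ → ℝ → ℝ)
    (hb : b = bp γ T φ φ₁ φ₂ R s L SS Sf n₁ Rf) : b t r m = b 0 0 0 +
      (b 1 0 0 - b (-1) 0 0) / 2 * t + (b 0 1 0 - b 0 0 0) * r +
      ((b 1 0 0 + b (-1) 0 0) / 2 - b 0 0 0) * (t * t) + (b 0 0 1 - b 0 0 0) * m := by
  subst hb
  simp only [bp, div_eq_mul_inv, ← inv_pow]
  generalize (1 + φ ^ 2 * s)⁻¹ = W
  ring

theorem q_bp {γ : ℝ} {T φ φ₁ φ₂ R s L SS Sf n₁ Rf : Y → ℝ} {t r m : Y → Vc n → ℝ}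
    (h1 : ContDiff ℝ ∞ T) (h2 : ContDiff ℝ ∞ φ) (h3 : ContDiff ℝ ∞ φ₁) (h4 : ContDiff ℝ ∞ φ₂)
    (h5 : ContDiff ℝ ∞ R) (h6 : ContDiff ℝ ∞ s) (h7 : ContDiff ℝ ∞ L) (h8 : ContDiff ℝ ∞ SS)
    (h9 : ContDiff ℝ ∞ Sf) (ha : ContDiff ℝ ∞ n₁) (hb : ContDiff ℝ ∞ Rf) (h0 : ∀ w, 0 ≤ s w)
    (ht : Q1 t) (hr : Q1 r) (hm : Q2 m) :
    Q2 fun w q => bp γ (T w) (φ w) (φ₁ w) (φ₂ w) (R w) (s w) (L w) (SS w) (Sf w) (n₁ w) (Rf w)
      (t w q) (r w q) (m w q) := by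
  have hp : ∀ w, 1 + φ w ^ 2 * s w ≠ 0 := fun w => by
    have := h0 w
    positivity
  have hp' := fun w => pow_ne_zero 2 (hp w)
  have hs : ∀ a b c : ℝ, ContDiff ℝ ∞ fun w => bp γ (T w) (φ w) (φ₁ w) (φ₂ w) (R w) (s w) (L w)
      (SS w) (Sf w) (n₁ w) (Rf w) a b c := fun a b c => by
    unfold bp
    fun_prop (disch := assumption)
  have k := (((((Q1.const (hs 0 0 0)).add (ht.smul (((hs 1 0 0).sub (hs (-1) 0 0)).div_const
    2))).add (hr.smul ((hs 0 1 0).sub (hs 0 0 0)))).two.add ((ht.mul ht).smul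
      ((((hs 1 0 0).add (hs (-1) 0 0)).div_const 2).sub (hs 0 0 0)))).add
        (hm.smul ((hs 0 0 1).sub (hs 0 0 0))))
  obtain ⟨B, a, b⟩ := k
  exact ⟨B, a, fun w q => (b w q).trans (bp_eq _ _ _ _ _ _ _ _ _ _ _ _ _ _ _ _ rfl).symm⟩

variable {g : Field n} {x : Y → E n} {p : Y → Vc n} {z : Y → ℝ} {φ : ℝ → ℝ}

theorem cmp {f : E n → ℝ} (hf : Smooth f) (hx : ContDiff ℝ ∞ x) : ContDiff ℝ ∞ fun w => f (x w) :=
  ContDiff.comp (g := f) hf hx

theorem sm_rs (hg : Met g) (hx : ContDiff ℝ ∞ x) (hp : ContDiff ℝ ∞ p) (i : Fin n) :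
    ContDiff ℝ ∞ fun w => rs g (x w) (p w) i :=
  ContDiff.sum fun j _ => (cmp (hg.sm_up i j) hx).mul (contDiff_pi.1 hp j)

theorem sm_sq (hg : Met g) (hx : ContDiff ℝ ∞ x) (hp : ContDiff ℝ ∞ p) :
    ContDiff ℝ ∞ fun w => sq g (x w) (p w) :=
  ContDiff.sum fun i _ => ContDiff.sum fun j _ =>
    ((cmp (hg.sm_up i j) hx).mul (contDiff_pi.1 hp i)).mul (contDiff_pi.1 hp j)

theorem sm_Tr : ContDiff ℝ ∞ Tr := by
  have h : ContDiff ℝ ∞ fun z : ℝ => Real.smoothTransition (4 * z - 1) :=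
    Real.smoothTransition.contDiff.comp (by fun_prop)
  exact (h.mul contDiff_id).add (contDiff_const.sub h)

theorem sm_av {U : E n → ℝ} (hg : Met g) (hU : Smooth U) (h0 : ∀ x, 0 < U x)
    (hφ : ContDiff ℝ ∞ φ) : ContDiff ℝ ∞ (av g U φ) := by
  have hx : ContDiff ℝ ∞ fun w : E n × Vc n × ℝ => w.1 := contDiff_fst
  have hp : ContDiff ℝ ∞ fun w : E n × Vc n × ℝ => w.2.1 := contDiff_snd.fst
  have hz : ContDiff ℝ ∞ fun w : E n × Vc n × ℝ => 1 + w.2.2 / U w.1 :=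
    contDiff_const.add (contDiff_snd.snd.div (cmp hU hx) fun w => (h0 _).ne')
  have h1 := hφ.comp hz
  have h2 := (contDiff_infty_iff_deriv.1 hφ).2.comp hz
  have h3 := sm_sq hg hx hp
  have h4 := contDiff_const (c := (1 : ℝ)).add ((h1.pow 2).mul h3)
  have h5 : ∀ w : E n × Vc n × ℝ, 1 + φ (1 + w.2.2 / U w.1) ^ 2 * sq g w.1 w.2.1 ≠ 0 := fun w => by
    have : 0 ≤ sq g w.1 w.2.1 := hg.up_nonneg _ _
    positivity
  refine contDiff_pi.2 fun i => contDiff_pi.2 fun j => ?_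
  have h6 := cmp (hg.sm_up i j) hx
  exact ((cmp (hU.rpow h0 _) hx).div_const _).mul ((contDiff_const.mul (h6.sub
    ((((h1.pow 2).mul (sm_rs hg hx hp i)).mul (sm_rs hg hx hp j)).div h4 h5))).add
      (((((contDiff_const.mul (sm_Tr.comp hz)).mul h1).mul h2).mul ((h3.mul h6).sub
        ((sm_rs hg hx hp i).mul (sm_rs hg hx hp j)))).div h4 h5))

theorem q_bx {S : Y → Mx n} {Λ : Y → ℝ} {u : Y → Vc n → Vc n} (hg : Met g) (hφ : ContDiff ℝ ∞ φ)
    (hx : ContDiff ℝ ∞ x) (hp : ContDiff ℝ ∞ p) (hS : ∀ i j, ContDiff ℝ ∞ fun w => S w i j)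
    (hΛ : ContDiff ℝ ∞ Λ) (hz : ContDiff ℝ ∞ z) (hu : ∀ i, Q1 fun w q => u w q i) :
    Q2 fun w q => bx g φ (x w) (p w) (S w) (Λ w) (z w) (u w q) := by
  have h1 := (contDiff_infty_iff_deriv.1 hφ).2
  have h2 := fun i j => cmp (hg.sm_up i j) hx
  have h3 := sm_rs hg hx hp
  have h4 : ∀ i l, Smooth fun y => C.rc g y i l := fun i l => ContDiff.sum fun j _ =>
    (ContDiff.sub ((hg.sm_chr j i l).pd j) ((hg.sm_chr j j l).pd i)).add (ContDiff.sum fun k _ =>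
      (ContDiff.mul (hg.sm_chr j j k) (hg.sm_chr k i l)).sub
        (ContDiff.mul (hg.sm_chr k j i) (hg.sm_chr j k l)))
  exact q_bp (sm_Tr.comp hz) (hφ.comp hz) (h1.comp hz)
    ((contDiff_infty_iff_deriv.1 h1).2.comp hz) ((cmp hg.sm_scal hx).sub hΛ) (sm_sq hg hx hp)
    (ContDiff.sum fun i _ => ContDiff.sum fun j _ => (h2 i j).mul (hS i j))
    (ContDiff.sum fun i _ => ContDiff.sum fun j _ => ContDiff.sum fun k _ => ContDiff.sum fun l _ =>
      (((h2 i k).mul (h2 j l)).mul (hS i j)).mul (hS k l))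
    (ContDiff.sum fun i _ => ContDiff.sum fun j _ => ((hS i j).mul (h3 i)).mul (h3 j))
    (ContDiff.sum fun i _ => ContDiff.sum fun j _ => ((hS i j).mul (ContDiff.sum fun a _ =>
      ContDiff.sum fun b _ => ((h2 i a).mul (hS a b)).mul (h3 b))).mul (h3 j))
    (ContDiff.sum fun i _ => ContDiff.sum fun j _ => ((cmp (h4 i j) hx).mul (h3 i)).mul (h3 j))
    (fun w => hg.up_nonneg _ _)
    (.sum fun i => .sum fun j => (hu j).smul ((h2 i j).mul (contDiff_pi.1 hp i)))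
    (.sum fun i => .sum fun j =>
      ((Q1.sum fun k => (hu k).smul (h2 i k)).smul (hS i j)).smul' (h3 j))
    (.sum fun i => .sum fun j => ((hu i).smul (h2 i j)).mul (hu j))

end JetH

open JetH

theorem jet : JET := by
  intro n m g U φ θ hg hU h0 hφ hθ
  have hav := sm_av hg hU h0 hφ
  refine ⟨hav, ?_⟩
  have hx : ContDiff ℝ ∞ fun w : E n × (Vc n × Mx n × (Fin m → ℝ)) × ℝ => w.1 := contDiff_fst
  have hp : ContDiff ℝ ∞ fun w : E n × (Vc n × Mx n × (Fin m → ℝ)) × ℝ => w.2.1.1 :=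
    contDiff_snd.fst.fst
  have h1 := cmp hU hx
  have h2 := (contDiff_snd.snd.div h1 fun w => (h0 _).ne')
  have hz := (contDiff_const (c := (1 : ℝ))).add h2
  have h3 := fun i => cmp (hU.pd i) hx
  have h4 := fun k i j => cmp (hg.sm_chr k i j) hx
  have hu : ∀ i, Q1 fun (w : E n × (Vc n × Mx n × (Fin m → ℝ)) × ℝ) q => qv U w.1 w.2.2 q i :=
    fun i => by
      simpa only [qv, div_eq_mul_inv, sub_eq_add_neg, Pi.mul_apply, Pi.inv_apply] using
        ((Q1.coord i).add (.const (h2.mul (h3 i)).neg)).smul' (h1.inv fun w => (h0 _).ne')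
  exact ((q_bx hg hφ hx hp (fun i j => (contDiff_pi.1 (contDiff_pi.1 contDiff_snd.fst.snd.fst i)
    j).sub (ContDiff.sum fun k _ => (h4 k i j).mul (contDiff_pi.1 hp k)))
    (ContDiff.sum fun k _ => (contDiff_pi.1 contDiff_snd.fst.snd.snd k).mul ((hθ k).comp hz))
    hz hu).smul (((cmp (hU.rpow h0 _) hx).div_const _).mul h1)).add
    (Q1.sum fun i => .sum fun j => (((((Q1.sum fun k => (hu k).smul (h4 k i j)).smul h1).add
      ((hu j).smul (h3 i))).add ((hu i).smul (h3 j))).add (.const (h2.mul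
        (cmp ((hU.pd j).pd i) hx)))).smul (contDiff_pi.1 (contDiff_pi.1
          (hav.comp (hx.prodMk (hp.prodMk contDiff_snd.snd))) i) j)).two

end Vale.Agent.P366Y.F
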