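import Vale.Agent.P366Y.F.Defs
import Vale.Agent.P366Y.J.Defs
import Vale.Agent.P366Y.T.Mpn
import Vale.Agent.P366Z.Max

/-!
# P366Y, row MINP: the minimum principle along the homotopy
-/

open Metric Filter Topology Set
open Vale.Agent.P366.Stmt Vale.Agent.P366Z Vale.Agent.P366Y.Mp

noncomputable section

namespace Vale.Agent.P366Y.F

namespace Mi

variable {n : ℕ} {Λ : ℝ} {a : Mx n} {w : E n → ℝ} {x : E n}

theorem at_min (h : El Λ a) (hw : ContDiff ℝ 2 w) (hx : IsLocalMin w x) : 0 ≤ pr2 a (D2 w x) := by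
  have k := at_max (w := fun y => w y - 2 * w y) h (hw.sub (contDiff_const.mul hw)).contDiffAt
    (hx.mono fun y hy => by linarith)
  rw [d2_lin hw hw] at k
  linarith

theorem pr2_le (h : El Λ a) (H : Mx n) : pr2 a H ≤ |Λ| * ∑ i, ∑ j, |H i j| := by
  simp only [pr2, Finset.mul_sum]
  refine Finset.sum_le_sum fun i _ => Finset.sum_le_sum fun j _ => (le_abs_self _).trans ?_
  rw [abs_mul]
  exact mul_le_mul_of_nonneg_right ((h.2.1 i j).trans (le_abs_self _)) (abs_nonneg _)

theorem wl_pr2 (w : E n → ℝ) (x : E n) : wl (eu n) (fun _ => 1) w x = pr2 (eu n x) (D2 w x) := by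
  rw [wl_one, lap_eu]
  simp [pr2, D2, eu]

end Mi

open Mi

theorem minp : MINP := by
  intro n U r ρ Λ hn r0 rρ hU Ub Uh
  have cD : Continuous fun x => ∑ i, ∑ j, |D2 U x i j| :=
    continuous_finsetSum _ fun i _ => continuous_finsetSum _ fun j _ => ((hU.pd j).pd i).cont.abs
  obtain ⟨K, hK⟩ := (isCompact_closedBall (0 : E n) r).exists_bound_of_continuousOn cD.continuousOn
  refine ⟨2 * (|Λ| * |K|) + 1, fun l hl σ hσ a N u a₀ a1 ha ae hu u1 eq h1 h2 => ?_⟩
  have K0 : 0 ≤ |Λ| * |K| := by positivity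
  obtain ⟨z, hz, zm⟩ := (isCompact_closedBall (0 : E n) r).exists_isMinOn
    (nonempty_closedBall.2 r0.le) hu.cont.continuousOn
  obtain ⟨m, hm⟩ : ∃ m, m = min a₀ (u z) := ⟨_, rfl⟩
  have m1 : m ≤ a₀ := hm ▸ min_le_left _ _
  have cv : ContDiff ℝ 2 fun y => U y * (u y - 1) := hU.two.mul (hu.two.sub contDiff_const)
  have cw : ContDiff ℝ 2 fun y => U y * (u y - 1) - (m - 1) * U y :=
    cv.sub (contDiff_const.mul hU.two)
  have hO : IsOpen {x : E n | r < ‖x‖ ∧ u x < a₀} :=
    (isOpen_lt continuous_const continuous_norm).inter (isOpen_lt hu.cont continuous_const)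
  have out : ∀ x, x ∉ {x : E n | r < ‖x‖ ∧ u x < a₀} →
      0 ≤ U x * (u x - 1) - (m - 1) * U x := fun x hx => by
    have : m ≤ u x := by
      rcases le_or_gt ‖x‖ r with k | k
      · exact (hm ▸ min_le_right _ _ : m ≤ u z).trans (zm (mem_closedBall_zero_iff.2 k))
      · exact m1.trans (not_lt.1 fun k' => hx ⟨k, k'⟩)
    nlinarith [(Ub x).1]
  have key : ∀ x, 0 ≤ U x * (u x - 1) - (m - 1) * U x := fun x => by
    refine by_cases (fun hx => ?_) (out x)
    refine wmp n (eu n) (fun _ => 1) _ (fun _ => 0) _ (by omega) met_eu contDiff_const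
      (fun _ => one_pos) hO cw.continuous.continuousOn (fun y hy => ⟨cw.contDiffAt, le_rfl, ?_⟩)
      (fun y hy => out y (hO.interior_eq ▸ hy.2)) (fun e he => ?_) x hx
    · have k1 := eq y
      have k2 := mul_le_mul_of_nonneg_left (h2 y hy.1.le hy.2) hσ.1
      have k3 : 0 ≤ (1 - σ) * (l * rc ρ y * (U y * (1 - u y))) :=
        mul_nonneg (sub_nonneg.2 hσ.2) (mul_nonneg (mul_nonneg (by linarith) (J.rc_mem ρ y).1)
          (mul_nonneg (by linarith [(Ub y).1]) (by linarith [hy.2])))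
      rw [ae y hy.1.le] at k1
      rw [wl_pr2, d2_lin cv hU.two, Uh y hy.1.le]
      linarith
    · have k := u1.eventually (Ici_mem_nhds (show 1 - e / 2 < 1 by linarith))
      rw [← cobounded_eq_cocompact] at k
      obtain ⟨R, -, hR⟩ := (hasBasis_cobounded_compl_closedBall (0 : E n)).eventually_iff.1 k
      refine ⟨R + 1, fun y _ hy => ?_⟩
      have k1 : 1 - e / 2 ≤ u y := hR fun k => by linarith [mem_closedBall_zero_iff.1 k]
      nlinarith [(Ub y).1, (Ub y).2]
  have mu : ∀ x, m ≤ u x := fun x => by nlinarith [key x, (Ub x).1]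
  intro x
  refine le_trans (not_lt.1 fun k => ?_) (mu x)
  have e : m = u z :=
    hm.trans (min_eq_right (not_lt.1 fun k' => k.ne (hm.trans (min_eq_left k'.le))))
  rw [mem_closedBall_zero_iff] at hz
  have k1 := h1 z hz (.of_forall fun y => e ▸ mu y) (e ▸ k)
  have k2 := at_min (x := z) (ha z) cw (.of_forall fun y => by
    simp only [← e, mul_comm (U z), sub_self, key y])
  have k3 := (pr2_le (ha z) (D2 U z)).trans (mul_le_mul_of_nonneg_left ((le_abs_self _).trans
    ((hK z (mem_closedBall_zero_iff.2 hz)).trans (le_abs_self K))) (abs_nonneg Λ))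
  have k4 := eq z
  rw [d2_lin cv hU.two] at k2
  rw [J.rc_one (by linarith) (hz.trans rρ), ← e] at k4
  have k5 : |Λ| * |K| < l * U z := by nlinarith [(Ub z).1]
  have k6 := mul_pos (show 0 < 1 - m by linarith) (sub_pos.2 (k3.trans_lt k5))
  have k7 : 0 < pr2 (a z) (D2 (fun y => U y * (u y - 1)) z) - l * 1 * (U z * (m - 1)) := by
    linarith
  have k8 := mul_nonneg hσ.1 k1.le
  have k9 := mul_nonneg (sub_nonneg.2 hσ.2) k7.le
  have s0 := (mul_eq_zero.1 (le_antisymm (by linarith) k8)).resolve_right k1.ne'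
  have s1 := (mul_eq_zero.1 (le_antisymm (by linarith) k9)).resolve_right k7.ne'
  linarith

end Vale.Agent.P366Y.F
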