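import Vale.Agent.P366Y.F.Defs
import Vale.Agent.P366Y.J.Defs
import Vale.Agent.P366Y.T.QeA

/-!
# P366Y, block F, row NQ1: the structure conditions
-/

open MeasureTheory Metric Filter Topology Set
open scoped ContDiff ENNReal
open Vale.Agent.P366.Stmt Vale.Agent.P366Z

noncomputable section

namespace Vale.Agent.P366Y.F

namespace Nq1H

variable {n : ℕ} {V V' : Type} [NormedAddCommGroup V] [NormedAddCommGroup V'] {α β A B : ℝ}

theorem low {f : E n → V} (h : Ho β A f) (h0 : 0 < α) (hβ : α ≤ β) : Ho α (2 * A) f := by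
  have hA := Qe.nn h
  refine ⟨fun x => by linarith [h.1 x], fun x y => ?_⟩
  have p := Qe.rp x y α
  rcases le_total ‖x - y‖ 1 with k | k
  · have h3 := Real.rpow_le_rpow_of_exponent_ge' (norm_nonneg _) k h0.le hβ
    nlinarith [h.2 x y]
  · have h3 := Real.one_le_rpow k h0.le
    nlinarith [norm_sub_le_of_le (h.1 x) (h.1 y)]

theorem pair {f : E n → V} {g : E n → V'} (hf : Ho α A f) (hg : Ho α B g) :
    Ho α (A + B) fun x => (f x, g x) :=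
  have h1 := Qe.mono hf (le_add_of_nonneg_right (Qe.nn hg))
  have h2 := Qe.mono hg (le_add_of_nonneg_left (Qe.nn hf))
  ⟨fun x => max_le (h1.1 x) (h2.1 x), fun x y => max_le (h1.2 x y) (h2.2 x y)⟩

theorem fst {j : E n → V × V'} (h : Ho α A j) : Ho α A fun x => (j x).1 :=
  ⟨fun x => (norm_fst_le _).trans (h.1 x), fun x y => (norm_fst_le (j x - j y)).trans (h.2 x y)⟩

theorem el_mono {a : Mx n} (h : El A a) (k : A ≤ B) : El B a := by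
  refine ⟨h.1, fun i j => (h.2.1 i j).trans k, fun ξ => (h.2.2 ξ).trans
    (mul_le_mul_of_nonneg_right k ?_)⟩
  rcases lt_or_ge 0 A with h0 | h0
  · exact (mul_nonneg_iff_of_pos_left h0).1
      ((Finset.sum_nonneg fun i _ => sq_nonneg (ξ i)).trans (h.2.2 ξ))
  · simp [fun i j => abs_nonpos_iff.1 ((h.2.1 i j).trans h0)]

theorem nl_eq [NormedSpace ℝ V] {ρ : ℝ} {w : (E n → ℝ) → E n → V} (hw : Nl ρ β A w)
    {h h' : E n → ℝ} (c : Continuous h) (c' : Continuous h') (e : ∀ x, ‖x‖ ≤ ρ → h x = h' x) :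
    w h = w h' := funext fun x => sub_eq_zero.1 (norm_le_zero_iff.1 (le_of_forall_pos_le_add
  fun ε hε => by
    obtain ⟨d, d0, hd⟩ := hw.ct ε hε
    rw [zero_add]
    exact hd h h' c c' (fun y k => by rw [e y k, sub_self, abs_zero]; exact d0.le) x))

theorem qd_zero (q : Vc n) : qd 0 q = 0 := by simp [qd]

end Nq1H

open Nq1H in
/-- **row NQ1** -/
theorem nq1_of (hC : CMP) : NQ1 := by
  intro n W _ _ _ Q hQ l α hl h0 hβ hap
  have hα : α ∈ Ioo (0 : ℝ) 1 := ⟨h0, hβ.trans_lt hQ.β0.2⟩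
  have ρ0 := hQ.ρ0
  obtain ⟨A₁, n1⟩ := hQ.n1
  obtain ⟨A₂, n2⟩ := hQ.n2
  have ct : ∀ {M} {j : E n → ℝ × Vc n}, Ho α M j → Continuous fun y => (j y).1 :=
    fun k => (Qe.cont h0 k).fst
  have y1 : ∀ {M} {j : E n → ℝ × Vc n}, Ho α M j →
      Ho α (2 * A₁ + M) fun x => (Q.w₁ (fun y => (j y).1) x, (j x).1) :=
    fun k => pair (low (n1.ho _ (ct k)) h0 hβ) (fst k)
  have y2 : ∀ {M} {j : E n → ℝ × Vc n}, Ho α M j →
      Ho α (2 * A₂ + M) fun x => (Q.w₂ (fun y => (j y).1) x, j x) :=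
    fun k => pair (low (n2.ho _ (ct k)) h0 hβ) k
  have fa : ∀ {M} {j : E n → ℝ × Vc n}, Ho α M j → ∀ x, Q.ρ ≤ ‖x‖ → Q.aj j x = eu n 0 :=
    fun k x hx => hQ.fa _ (ct k) x _ hx
  have fb : ∀ {M} {j : E n → ℝ × Vc n}, Ho α M j → ∀ x, Q.ρ ≤ ‖x‖ → Q.bj j x = 0 :=
    fun k x hx => (congrArg (qd · _) (hQ.fb _ (ct k) x _ hx)).trans (qd_zero _)
  have sa : ContDiff ℝ 1 Q.a := hQ.sa.of_le (by norm_cast)
  have sb : ContDiff ℝ 1 Q.b := hQ.sb.of_le (by norm_cast)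
  have sb' : ContDiff ℝ 1 fun z : E n × W × ℝ × Vc n =>
      qd (Q.b (z.1, z.2.1, z.2.2.1)) z.2.2.2 := by
    unfold qd
    fun_prop
  refine ⟨?_, fun M => ?_, fun M e he => ?_, ?_, hap⟩
  · obtain ⟨Λ, -, -, h⟩ := hC n ℝ ℝ (fun z => l * rc Q.ρ z.1) (Q.ρ + 1) 0
      (contDiff_const.mul (((J.sm_rc Q.ρ).of_le (by norm_cast)).comp contDiff_fst))
    exact ⟨_, h α hα (fun _ => 0) 0 ⟨by simp, by simp⟩ fun x hx => by
      rw [J.rc_zero ρ0.le hx, mul_zero]⟩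
  · obtain ⟨Λ₁, l1, -, h1⟩ := hC n _ _ Q.a Q.ρ (2 * A₁ + M) sa
    obtain ⟨Λ₂, l2, -, h2⟩ := hC n _ _ _ Q.ρ (2 * A₂ + M) sb'
    have e1 := norm_nonneg (eu n 0)
    have e2 := abs_nonneg Q.Λ
    have e3 := le_abs_self Q.Λ
    refine ⟨|Q.Λ| + (Λ₁ + ‖eu n 0‖) + Λ₂, fun j k => ⟨⟨⟨_, fun x => hQ.el _ (ct k) x _⟩,
      fun x => (hQ.el _ (ct k) x _).2.1, fa k, fun x => ⟨mul_nonneg hl (J.rc_mem _ x).1,
        mul_le_of_le_one_right hl (J.rc_mem _ x).2⟩, fun x hx => ?_⟩,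
      fun x => el_mono (hQ.el _ (ct k) x _) (by linarith),
      Qe.mono (h1 α hα _ _ (y1 k) (fa k)) (by linarith),
      Qe.mono (h2 α hα _ _ (y2 k) (fb k)) (by rw [norm_zero]; linarith), fun x hx => ?_⟩⟩
    · rw [Pb.c, J.rc_one ρ0.le hx, mul_one]
    · rw [fb k x (by linarith), Pb.c, J.rc_zero ρ0.le hx, mul_zero, zero_mul]
  · obtain ⟨Λ₁, l1, h1, -⟩ := hC n _ _ Q.a Q.ρ (2 * A₁ + M) sa
    obtain ⟨Λ₂, l2, h2, -⟩ := hC n _ _ _ Q.ρ (2 * A₂ + M) sb'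
    obtain ⟨ε, ε0, hε⟩ : ∃ ε > (0 : ℝ), (Λ₁ + Λ₂ + 1) * ε = e :=
      ⟨e / (Λ₁ + Λ₂ + 1), by positivity, mul_div_cancel₀ _ (by positivity)⟩
    obtain ⟨d₁, p1, k1⟩ := n1.ct ε ε0
    obtain ⟨d₂, p2, k2⟩ := n2.ct ε ε0
    refine ⟨min ε (min d₁ d₂), by positivity, fun j j' k k' hd x => ?_⟩
    simp only [le_min_iff] at hd
    have hd' : ∀ y, |(j y).1 - (j' y).1| ≤ ‖j y - j' y‖ := fun y => norm_fst_le (j y - j' y)
    rcases le_total ‖x‖ Q.ρ with hx | hx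
    · have hx' : ‖x‖ ≤ Q.ρ + 1 := by linarith
      have a1 := (h1 x x _ _ hx' hx' ((y1 k).1 x) ((y1 k').1 x)).2.2
      have a2 := (h2 x x _ _ hx' hx' ((y2 k).1 x) ((y2 k').1 x)).2.2
      rw [sub_self, norm_zero, zero_add] at a1 a2
      have b1 := mul_le_mul_of_nonneg_left (max_le (k1 _ _ (ct k) (ct k')
        (fun y _ => (hd' y).trans (hd y).2.1) x) ((hd' x).trans (hd x).1)) l1
      have b2 := mul_le_mul_of_nonneg_left (max_le (k2 _ _ (ct k) (ct k')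
        (fun y _ => (hd' y).trans (hd y).2.2) x) (hd x).1) l2
      exact ⟨(a1.trans b1).trans (by nlinarith), (a2.trans b2).trans (by nlinarith)⟩
    · rw [fa k x hx, fa k' x hx, fb k x hx, fb k' x hx, sub_self, sub_self, norm_zero, abs_zero]
      exact ⟨he.le, he.le⟩
  · rintro j j' ⟨M, k, k'⟩ h x hx
    have e : ∀ y, ‖y‖ ≤ Q.ρ → (j y).1 = (j' y).1 := fun y hy => by rw [h y (by linarith)]
    rw [Pb.aj, Pb.aj, Pb.bj, Pb.bj, nl_eq n1 (ct k) (ct k') e, nl_eq n2 (ct k) (ct k') e,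
      h x (by linarith)]
    exact ⟨rfl, rfl⟩

end Vale.Agent.P366Y.F
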