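import Vale.Agent.P366Y.F.Defs
import Vale.Agent.P366Y.J.Defs

/-!
# P366Y, block F: the a priori estimate
-/

open MeasureTheory Metric Filter Topology Set
open scoped ContDiff ENNReal
open Vale.Agent.P366.Stmt Vale.Agent.P366Z

noncomputable section

namespace Vale.Agent.P366Y.F

namespace Nq2H

variable {n : ℕ} {V V' : Type} [NormedAddCommGroup V] [NormedAddCommGroup V'] {α θ A B : ℝ}

theorem ho_le {f : E n → V} (h : Ho α A f) (k : A ≤ B) : Ho α B f :=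
  ⟨fun x => (h.1 x).trans k, fun x y => (h.2 x y).trans
    (mul_le_mul_of_nonneg_right k (Real.rpow_nonneg (norm_nonneg _) α))⟩

theorem ho_down {f : E n → V} (h : Ho θ A f) (h0 : 0 ≤ α) (h1 : α ≤ θ) : Ho α (2 * |A|) f := by
  have A0 := abs_nonneg A
  have A1 := le_abs_self A
  refine ⟨fun x => by linarith [h.1 x], fun x y => ?_⟩
  rcases le_total ‖x - y‖ 1 with c | c
  · exact (h.2 x y).trans (mul_le_mul (by linarith)
      (Real.rpow_le_rpow_of_exponent_ge' (norm_nonneg _) c h0 h1) (by positivity) (by positivity))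
  · have := mul_le_mul_of_nonneg_left (Real.one_le_rpow c h0) (show 0 ≤ 2 * |A| by positivity)
    linarith [norm_sub_le (f x) (f y), h.1 x, h.1 y]

theorem ho_pair {f : E n → V} {g : E n → V'} (h : Ho α A f) (k : Ho α A g) :
    Ho α A fun x => (f x, g x) :=
  ⟨fun x => norm_prod_le_iff.2 ⟨h.1 x, k.1 x⟩, fun x y => norm_prod_le_iff.2 ⟨h.2 x y, k.2 x y⟩⟩

theorem el_le {a : Mx n} (h : El A a) (k : A ≤ B) : El B a := by
  refine ⟨h.1, fun i j => (h.2.1 i j).trans k, fun ξ => (h.2.2 ξ).trans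
    (mul_le_mul_of_nonneg_right k ?_)⟩
  rcases lt_or_ge 0 A with c | c
  · exact nonneg_of_mul_nonneg_right
      ((Finset.sum_nonneg fun i _ => sq_nonneg (ξ i)).trans (h.2.2 ξ)) c
  · simp [fun i j => abs_nonpos_iff.1 ((h.2.1 i j).trans c)]

theorem sum_le {f : Fin n → ℝ} {c : ℝ} (h : ∀ i, |f i| ≤ c) : |∑ i, f i| ≤ n * c :=
  (Finset.abs_sum_le_sum_abs _ _).trans
    ((Finset.sum_le_card_nsmul _ _ c fun i _ => h i).trans_eq (by simp))

/-- a bound for the polynomial with arbitrary monomials -/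
theorem tri (B : ℝ × Vc n × Mx n) {u c : ℝ} {p : Vc n} {P : Mx n} (hu : |u| ≤ c)
    (hp : ∀ i, |p i| ≤ c) (hP : ∀ i j, |P i j| ≤ c) :
    |B.1 * u + ∑ i, B.2.1 i * p i + ∑ i, ∑ j, B.2.2 i j * P i j| ≤
      (1 + n + n * n) * ‖B‖ * c := by
  have m : ∀ a b : ℝ, ‖a‖ ≤ ‖B‖ → |b| ≤ c → |a * b| ≤ ‖B‖ * c := fun a b h k => by
    rw [abs_mul]
    exact mul_le_mul h k (abs_nonneg _) (norm_nonneg _)
  have h1 := m _ _ (norm_fst_le B) hu
  have h2 := sum_le fun i => m _ _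
    ((norm_le_pi_norm _ i).trans ((norm_fst_le B.2).trans (norm_snd_le B))) (hp i)
  have h3 := sum_le fun i => sum_le fun j => m _ _ ((norm_le_pi_norm _ j).trans
    ((norm_le_pi_norm _ i).trans ((norm_snd_le B.2).trans (norm_snd_le B)))) (hP i j)
  linarith [abs_add_three (B.1 * u) (∑ i, B.2.1 i * p i) (∑ i, ∑ j, B.2.2 i j * P i j)]

theorem e2_nn (q : Vc n) : 0 ≤ e2 q := Finset.sum_nonneg fun i _ => sq_nonneg (q i)

theorem qd_le (B : ℝ × Vc n × Mx n) (q : Vc n) :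
    |qd B q| ≤ (1 + n + n * n) * ‖B‖ * (1 + e2 q) := by
  have h : ∀ i, q i ^ 2 ≤ e2 q := fun i =>
    Finset.single_le_sum (fun j _ => sq_nonneg (q j)) (Finset.mem_univ i)
  have := tri B (u := 1) (c := 1 + e2 q) (p := q) (P := fun i j => q i * q j)
    (by rw [abs_one]; linarith [e2_nn q])
    (fun i => abs_le.2 ⟨by nlinarith [h i, sq_nonneg (q i + 1)],
      by nlinarith [h i, sq_nonneg (q i - 1)]⟩)
    fun i j => abs_le.2 ⟨by nlinarith [h i, h j, sq_nonneg (q i + q j)],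
      by nlinarith [h i, h j, sq_nonneg (q i - q j)]⟩
  simpa only [qd, mul_one, mul_assoc] using this

theorem qd_sub (B B' : ℝ × Vc n × Mx n) (q : Vc n) : qd B q - qd B' q = qd (B - B') q := by
  simp only [qd, Prod.fst_sub, Prod.snd_sub, Pi.sub_apply, sub_mul, Finset.sum_sub_distrib]
  ring

theorem qd_lip (B : ℝ × Vc n × Mx n) (q q' : Vc n) :
    |qd B q - qd B q'| ≤ (1 + n + n * n) * ‖B‖ * ((1 + ‖q‖ + ‖q'‖) * ‖q - q'‖) := by
  have h : ∀ i, |q i - q' i| ≤ ‖q - q'‖ := fun i => norm_le_pi_norm (q - q') i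
  have a1 : 0 ≤ ‖q‖ * ‖q - q'‖ := by positivity
  have a2 : 0 ≤ ‖q'‖ * ‖q - q'‖ := by positivity
  have := tri B (u := 0) (c := (1 + ‖q‖ + ‖q'‖) * ‖q - q'‖) (p := fun i => q i - q' i)
    (P := fun i j => q i * (q j - q' j) + (q i - q' i) * q' j) (by rw [abs_zero]; positivity)
    (fun i => by linarith [h i]) fun i j => by
      refine (abs_add_le _ _).trans ?_
      rw [abs_mul, abs_mul]
      have b1 : |q i| ≤ ‖q‖ := norm_le_pi_norm q i
      have b2 : |q' j| ≤ ‖q'‖ := norm_le_pi_norm q' j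
      linarith [mul_le_mul b1 (h j) (abs_nonneg _) (norm_nonneg _),
        mul_le_mul (h i) b2 (abs_nonneg _) (norm_nonneg _), norm_nonneg (q - q')]
  refine le_of_eq_of_le (congrArg _ ?_) this
  have e : ∀ i j, B.2.2 i j * (q i * (q j - q' j) + (q i - q' i) * q' j) =
      B.2.2 i j * q i * q j - B.2.2 i j * q' i * q' j := fun i j => by ring
  simp only [e]
  simp only [qd, mul_sub, Finset.sum_sub_distrib]
  ring

theorem cvx {σ u v a b : ℝ} (hσ : σ ∈ Icc (0 : ℝ) 1) (hu : |u| ≤ a) (hv : |v| ≤ b) :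
    |σ * u + (1 - σ) * v| ≤ a + b := by
  refine (abs_add_le _ _).trans ?_
  rw [abs_mul, abs_mul, abs_of_nonneg hσ.1, abs_of_nonneg (sub_nonneg.2 hσ.2)]
  exact add_le_add ((mul_le_of_le_one_left (abs_nonneg _) hσ.2).trans hu)
    ((mul_le_of_le_one_left (abs_nonneg _) (sub_le_self _ hσ.1)).trans hv)

/-- the chain rule -/
theorem chain {Φ : E n × Vc n × ℝ → Mx n} {w : E n → Vc n} {v : E n → ℝ} {x : E n} {L : ℝ}
    (hΦ : ContDiff ℝ ∞ Φ) (hw : ContDiff ℝ ∞ w) (hv : Smooth v) (A0 : 0 ≤ A)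
    (hA : ∀ i k, |pd k (fun y => w y i) x| ≤ A) (hL : ‖fderiv ℝ Φ (x, w x, v x)‖ ≤ L)
    (i j k : Fin n) : |pd k (fun z => Φ (z, w z, v z) i j) x| ≤ L * (1 + A + ‖D1 v x‖) := by
  have h1 := (hw.differentiable (by simp) x).hasFDerivAt
  have h2 := (hΦ.differentiable (by simp) (x, w x, v x)).hasFDerivAt.comp x
    ((hasFDerivAt_id x).prodMk (h1.prodMk (hv.diff x).hasFDerivAt))
  have h3 := pd_of_hasFDerivAt (hasFDerivAt_pi'.1 (hasFDerivAt_pi'.1 h2 i) j) k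
  have n0 := norm_nonneg (D1 v x)
  have h4 : ∀ T : Mx n, |T i j| ≤ ‖T‖ := fun T =>
    (norm_le_pi_norm (T i) j).trans (norm_le_pi_norm T i)
  have h5 : 0 ≤ 1 + A + ‖D1 v x‖ := by linarith
  refine le_of_eq_of_le (congrArg _ h3) ((h4 (fderiv ℝ Φ (x, w x, v x) (EuclideanSpace.single k 1,
    fderiv ℝ w x (EuclideanSpace.single k 1), fderiv ℝ v x (EuclideanSpace.single k 1)))).trans
    ((fderiv ℝ Φ (x, w x, v x)).le_of_opNorm_le_of_le hL (norm_prod_le_iff.2 ⟨?_,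
      norm_prod_le_iff.2 ⟨(pi_norm_le_iff_of_nonneg h5).2 fun m => ?_, ?_⟩⟩)))
  · exact le_of_eq_of_le (b := 1) (by simp) (by linarith)
  · exact le_of_eq_of_le (congrArg _ (pd_of_hasFDerivAt (hasFDerivAt_pi'.1 h1 m) k).symm)
      ((hA m k).trans (by linarith))
  · exact le_of_eq_of_le (congrArg _ (pd_eq (hv.diff x) k).symm)
      ((norm_le_pi_norm (D1 v x) k).trans (by linarith))

end Nq2H

open Nq2H in
/-- **NQ2** -/
theorem nq2_of (hC : CMP) (hN : NHO) (hS : NATS) : NQ2 := by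
  intro n W _ _ _ Q hQ l K hl
  obtain ⟨A₁, n1⟩ := hQ.n1
  obtain ⟨A₂, n2⟩ := hQ.n2
  obtain ⟨A₃, n3⟩ := hQ.lip
  obtain ⟨N, hN', N0⟩ : ∃ N : ℝ, N = 1 + n + n * n ∧ 0 ≤ N := ⟨_, rfl, by positivity⟩
  have sa : ContDiff ℝ 1 Q.a := hQ.sa.of_le (by norm_cast)
  have sb : ContDiff ℝ 1 Q.b := hQ.sb.of_le (by norm_cast)
  have sc : ContDiff ℝ 1 fun w : E n × ℝ => Q.c l w.1 * w.2 := (contDiff_const.mul
    ((ContDiff.of_le (J.sm_rc Q.ρ) (by norm_cast)).comp contDiff_fst)).mul contDiff_snd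
  obtain ⟨La, La0, ha, -⟩ := hC n _ _ Q.a Q.ρ (max A₁ K) sa
  obtain ⟨Lb, Lb0, hb, -⟩ := hC n _ _ Q.b Q.ρ (max A₂ K) sb
  obtain ⟨θ, hθ, C, hN⟩ := hN n (|Q.Λ| + La * (1 + |A₃|) + N * Lb + l * |K|) K hQ.dim
  have α0 : 0 < min θ Q.β := lt_min hθ.1 hQ.β0.1
  have hα : min θ Q.β ∈ Ioo (0 : ℝ) 1 := ⟨α0, (min_le_left _ _).trans_lt hθ.2⟩
  obtain ⟨M, M1, M2, M3⟩ : ∃ M, 2 * |C| ≤ M ∧ 2 * |A₁| ≤ M ∧ 2 * |A₂| ≤ M :=
    ⟨max (2 * |C|) (max (2 * |A₁|) (2 * |A₂|)), le_max_left _ _,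
      le_max_of_le_right (le_max_left _ _), le_max_of_le_right (le_max_right _ _)⟩
  have M0 : 0 ≤ M := le_trans (by positivity) M1
  obtain ⟨Ka, Ka0, -, ka⟩ := hC n _ _ Q.a Q.ρ M sa
  obtain ⟨Kb, Kb0, -, kb⟩ := hC n _ _ Q.b Q.ρ M sb
  obtain ⟨Kc, Kc0, -, kc⟩ := hC n _ _ _ (Q.ρ + 1) M sc
  obtain ⟨C', hS⟩ := hS n _ (|Q.Λ| + M + (Ka + ‖eu n 0‖) + (N * Kb + Kc)) hα
  refine ⟨_, α0, min_le_right _ _, C', fun σ hσ v sv cv bv ev => ?_⟩
  have c0 := sv.cont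
  have ev' : ∀ x, pr2 (Q.a (x, Q.w₁ v x, v x)) (D2 v x) =
      σ * qd (Q.b (x, Q.w₂ v x, v x)) (D1 v x) + (1 - σ) * (Q.c l x * v x) := fun x =>
    (ev x).trans (by rw [mul_assoc]; rfl)
  have p1 := abs_nonneg Q.Λ
  have p2 : 0 ≤ La * (1 + |A₃|) := by positivity
  have p3 : 0 ≤ N * Lb := by positivity
  have p4 : 0 ≤ l * |K| := by positivity
  have h1 : Ho θ C v := by
    refine hN (fun x => Q.a (x, Q.w₁ v x, v x)) v (sa.comp (contDiff_id.prodMk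
      (((n1.sm v c0).of_le (by norm_cast)).prodMk (ContDiff.of_le sv (by norm_cast))))) sv.two
      fun x => ⟨el_le (hQ.el v c0 x _) (by linarith [le_abs_self Q.Λ]), bv x, fun i j k => ?_, ?_⟩
    · have n0 := norm_nonneg (D1 v x)
      by_cases hx : ‖x‖ ≤ Q.ρ + 1
      · have hw : ‖(Q.w₁ v x, v x)‖ ≤ max A₁ K :=
          norm_prod_le_iff.2 ⟨le_max_of_le_left ((n1.ho v c0).1 x), le_max_of_le_right (bv x)⟩
        refine (chain hQ.sa (n1.sm v c0) sv (abs_nonneg A₃)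
          (fun i k => (n3 v c0 x i k).trans (le_abs_self _)) (ha x x _ _ hx hx hw hw).2.1
          i j k).trans ?_
        have q1 : 0 ≤ La * (|A₃| * ‖D1 v x‖) := by positivity
        have q2 : 0 ≤ (|Q.Λ| + N * Lb + l * |K|) * (1 + ‖D1 v x‖) := by positivity
        linarith
      · have e : (fun z => Q.a (z, Q.w₁ v z, v z) i j) =ᶠ[𝓝 x] fun _ => eu n 0 i j := by
          filter_upwards [(isOpen_lt continuous_const continuous_norm).mem_nhds
            (show Q.ρ < ‖x‖ by linarith [not_le.1 hx])] with z hz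
          rw [hQ.fa v c0 z _ (le_of_lt hz)]
          rfl
        rw [pd_congr e, pd_const, abs_zero]
        positivity
    · have hB : ‖Q.b (x, Q.w₂ v x, v x)‖ ≤ Lb := by
        by_cases hx : ‖x‖ ≤ Q.ρ + 1
        · have hw : ‖(Q.w₂ v x, v x)‖ ≤ max A₂ K :=
            norm_prod_le_iff.2 ⟨le_max_of_le_left ((n2.ho v c0).1 x), le_max_of_le_right (bv x)⟩
          exact (hb x x _ _ hx hx hw hw).1
        · rw [hQ.fb v c0 x _ (by linarith [not_le.1 hx]), norm_zero]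
          exact Lb0
      have e0 := e2_nn (D1 v x)
      have r := J.rc_mem Q.ρ x
      have q1 : |Q.c l x * v x| ≤ l * |K| := by
        rw [abs_mul, Pb.c, abs_of_nonneg (mul_nonneg hl r.1)]
        exact mul_le_mul (mul_le_of_le_one_right hl r.2) ((bv x).trans (le_abs_self K))
          (abs_nonneg _) hl
      have q2 : N * ‖Q.b (x, Q.w₂ v x, v x)‖ * (1 + e2 (D1 v x)) ≤ N * Lb * (1 + e2 (D1 v x)) := by
        gcongr
      have q3 : 0 ≤ (|Q.Λ| + La * (1 + |A₃|)) * (1 + e2 (D1 v x)) := by positivity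
      have q4 : 0 ≤ l * |K| * e2 (D1 v x) := by positivity
      rw [ev']
      linarith [cvx hσ (hN' ▸ qd_le (Q.b (x, Q.w₂ v x, v x)) (D1 v x)) q1]
  have h2 := ho_le (ho_down h1 α0.le (min_le_left _ _)) M1
  have ga := ka _ hα _ (eu n 0) (ho_pair (ho_le (ho_down (n1.ho v c0) α0.le (min_le_right _ _)) M2)
    h2) fun x hx => hQ.fa v c0 x _ hx
  have gb := kb _ hα _ 0 (ho_pair (ho_le (ho_down (n2.ho v c0) α0.le (min_le_right _ _)) M3)
    h2) fun x hx => hQ.fb v c0 x _ hx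
  have gc := kc _ hα v 0 h2 fun x hx => by
    simp only [Pb.c, J.rc_zero hQ.ρ0.le hx, mul_zero, zero_mul]
  rw [norm_zero, add_zero] at gb gc
  have p5 : 0 ≤ Ka + ‖eu n 0‖ := by positivity
  have p6 : 0 ≤ N * Kb := by positivity
  have h3 := hS (fun x => Q.a (x, Q.w₁ v x, v x))
    (fun x q => σ * qd (Q.b (x, Q.w₂ v x, v x)) q + (1 - σ) * (Q.c l x * v x)) v
    (fun x => el_le (hQ.el v c0 x _) (by linarith [le_abs_self Q.Λ])) (ho_le ga (by linarith)) cv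
    (ho_le h2 (by linarith)) (fun x q => ?_) (fun x y q => ?_) (fun x q q' => ?_) ev'
  · exact ho_pair h3.2.1 h3.2.2.1
  · have e0 := e2_nn q
    have q2 : N * ‖Q.b (x, Q.w₂ v x, v x)‖ * (1 + e2 q) ≤ N * Kb * (1 + e2 q) := by
      gcongr
      exact gb.1 x
    have q3 : 0 ≤ (|Q.Λ| + M + (Ka + ‖eu n 0‖)) * (1 + e2 q) := by positivity
    have q4 : 0 ≤ Kc * e2 q := by positivity
    linarith [cvx hσ (hN' ▸ qd_le (Q.b (x, Q.w₂ v x, v x)) q) (gc.1 x)]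
  · have e0 := e2_nn q
    have d0 : 0 ≤ ‖x - y‖ ^ min θ Q.β := by positivity
    have q1 := cvx hσ (hN' ▸ qd_le (Q.b (x, Q.w₂ v x, v x) - Q.b (y, Q.w₂ v y, v y)) q) (gc.2 x y)
    have q2 : N * ‖Q.b (x, Q.w₂ v x, v x) - Q.b (y, Q.w₂ v y, v y)‖ * (1 + e2 q) ≤
        N * (Kb * ‖x - y‖ ^ min θ Q.β) * (1 + e2 q) := by
      gcongr
      exact gb.2 x y
    have q3 : 0 ≤ (|Q.Λ| + M + (Ka + ‖eu n 0‖)) * (1 + e2 q) * ‖x - y‖ ^ min θ Q.β := by
      positivity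
    have q4 : 0 ≤ Kc * e2 q * ‖x - y‖ ^ min θ Q.β := by positivity
    rw [← qd_sub] at q1
    refine le_of_eq_of_le (congrArg _ (by ring)) (q1.trans ?_)
    linarith
  · have q1 := cvx hσ (hN' ▸ qd_lip (Q.b (x, Q.w₂ v x, v x)) q q') (abs_zero (α := ℝ)).le
    have q2 : N * ‖Q.b (x, Q.w₂ v x, v x)‖ * ((1 + ‖q‖ + ‖q'‖) * ‖q - q'‖) ≤
        N * Kb * ((1 + ‖q‖ + ‖q'‖) * ‖q - q'‖) := by
      gcongr
      exact gb.1 x
    have q3 : 0 ≤ (|Q.Λ| + M + (Ka + ‖eu n 0‖) + Kc) * ((1 + ‖q‖ + ‖q'‖) * ‖q - q'‖) := by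
      positivity
    refine le_of_eq_of_le (congrArg _ (by ring)) (q1.trans ?_)
    linarith

end Vale.Agent.P366Y.F
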