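import Vale.Agent.P366Y.F.Uex
import Vale.Agent.P366Y.F.Jet
import Vale.Agent.P366Y.F.Chg
import Vale.Agent.P366Y.F.Exp1
import Vale.Agent.P366Y.F.Ell
import Vale.Agent.P366Y.F.Minp
import Vale.Agent.P366Y.F.Cmp
import Vale.Agent.P366Y.F.Nq1
import Vale.Agent.P366Y.F.Nq2
import Vale.Agent.P366Y.T.Regq
import Vale.Agent.P366Y.T.Cac
import Vale.Agent.P366Y.T.Dgo
import Vale.Agent.P366Y.T.Nats
import Vale.Agent.P366Y.T.Qe
import Vale.Agent.P366Y.T.UschA
import Vale.Agent.P366Y.T.Sfp
import Vale.Agent.P366Y.T.Linh
import Vale.Agent.P366Y.C.All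

/-! # P366Y, block F: existence of the function `u`, all inputs discharged -/

namespace Vale.Agent.P366Y.F

/-- quasilinear existence with bounded right side -/
theorem qe : QE := qe_of sfp intp usch mpn linh

/-- Schauder bound with natural growth -/
theorem nats : NATS := nats_of intp usch

/-- Hoelder bound with natural growth -/
theorem nho : NHO := nho_of cac2 dgo

/-- existence with natural growth -/
theorem nqe : NQE := nqe_of regq qe (nq1_of cmp) (nq2_of cmp nho nats)

/-- change of metric -/
theorem chg : CHG := chg_of (exp1_of C.gb_ C.rb_)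

/-- existence of `u` -/
theorem uex : UEX := uex_of jet chg ell farl minp nqe

end Vale.Agent.P366Y.F
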