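import Vale.Agent.P366Y.Sk
import Vale.Agent.P366Y.C.Defs

/-!
# P366Y, block F: the existence of the conformal factor (definitions, statements)
-/

open MeasureTheory Metric Filter Topology Set
open scoped ContDiff ENNReal
open Vale.Agent.P366.Stmt Vale.Agent.P366Z

noncomputable section

namespace Vale.Agent.P366Y.F

variable {n : ℕ}

/-! ### nonlocal quasilinear equations with natural growth -/

/-- the quadratic polynomial with the coefficients `B` -/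
def qd (B : ℝ × Vc n × Mx n) (p : Vc n) : ℝ :=
  B.1 + ∑ i, B.2.1 i * p i + ∑ i, ∑ j, B.2.2 i j * p i * p j

/-- nonlocal data -/
structure Nl {W : Type} [NormedAddCommGroup W] [NormedSpace ℝ W] (ρ β A : ℝ)
    (w₂ : (E n → ℝ) → E n → W) : Prop where
  sm : ∀ h, Continuous h → ContDiff ℝ ∞ (w₂ h)
  ho : ∀ h, Continuous h → Ho β A (w₂ h)
  ct : ∀ e > (0 : ℝ), ∃ d > (0 : ℝ), ∀ h h', Continuous h → Continuous h' →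
    (∀ x, ‖x‖ ≤ ρ → |h x - h' x| ≤ d) → ∀ x, ‖w₂ h x - w₂ h' x‖ ≤ e

/-- the data of a problem -/
structure Pb (n : ℕ) (W : Type) where
  ρ : ℝ
  β : ℝ
  Λ : ℝ
  w₁ : (E n → ℝ) → E n → Vc n
  w₂ : (E n → ℝ) → E n → W
  a : E n × Vc n × ℝ → Mx n
  b : E n × W × ℝ → ℝ × Vc n × Mx n

namespace Pb

variable {W : Type} (Q : Pb n W)

/-- the principal part -/
def aj (j : E n → ℝ × Vc n) (x : E n) : Mx n := Q.a (x, Q.w₁ (fun y => (j y).1) x, (j x).1)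

/-- the right hand side -/
def bj (j : E n → ℝ × Vc n) (x : E n) : ℝ :=
  qd (Q.b (x, Q.w₂ (fun y => (j y).1) x, (j x).1)) (j x).2

/-- the potential of the homotopy -/
def c (l : ℝ) (x : E n) : ℝ := l * rc Q.ρ x

/-- the equation; `σ` is the parameter of the homotopy -/
def Eqn (l σ : ℝ) (v : E n → ℝ) : Prop :=
  ∀ x, pr2 (Q.aj (J1 v) x) (D2 v x) = σ * Q.bj (J1 v) x + (1 - σ) * Q.c l x * v x

variable [NormedAddCommGroup W] [NormedSpace ℝ W]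

/-- the hypotheses -/
structure Ok : Prop where
  dim : 3 ≤ n
  ρ0 : 0 < Q.ρ
  β0 : Q.β ∈ Ioo (0 : ℝ) 1
  n1 : ∃ A, Nl Q.ρ Q.β A Q.w₁
  n2 : ∃ A, Nl Q.ρ Q.β A Q.w₂
  lip : ∃ A, ∀ h, Continuous h → ∀ x i k, |pd k (fun y => Q.w₁ h y i) x| ≤ A
  sa : ContDiff ℝ ∞ Q.a
  sb : ContDiff ℝ ∞ Q.b
  el : ∀ h, Continuous h → ∀ x y, El Q.Λ (Q.a (x, Q.w₁ h x, y))
  fa : ∀ h, Continuous h → ∀ x y, Q.ρ ≤ ‖x‖ → Q.a (x, Q.w₁ h x, y) = eu n x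
  fb : ∀ h, Continuous h → ∀ x y, Q.ρ ≤ ‖x‖ → Q.b (x, Q.w₂ h x, y) = 0

end Pb

/-- a statement for all problems -/
def ForP (P : ∀ (n : ℕ) (W : Type), Pb n W → Prop) : Prop :=
  ∀ (n : ℕ) (W : Type) [NormedAddCommGroup W] [NormedSpace ℝ W] [FiniteDimensional ℝ W]
    (Q : Pb n W), Q.Ok → P n W Q

/-- **CMP**: compositions with functions of class `C¹` -/
def CMP : Prop := ∀ (n : ℕ) (V V' : Type) [NormedAddCommGroup V] [NormedSpace ℝ V]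
  [FiniteDimensional ℝ V] [NormedAddCommGroup V'] [NormedSpace ℝ V'] (Φ : E n × V → V') (ρ M : ℝ),
  ContDiff ℝ 1 Φ → ∃ Λ ≥ (0 : ℝ),
    (∀ x x' w w', ‖x‖ ≤ ρ + 1 → ‖x'‖ ≤ ρ + 1 → ‖w‖ ≤ M → ‖w'‖ ≤ M → ‖Φ (x, w)‖ ≤ Λ ∧
      ‖fderiv ℝ Φ (x, w)‖ ≤ Λ ∧ ‖Φ (x, w) - Φ (x', w')‖ ≤ Λ * (‖x - x'‖ + ‖w - w'‖)) ∧
    ∀ α ∈ Ioo (0 : ℝ) 1, ∀ (y : E n → V) (c : V'), Ho α M y →
      (∀ x, ρ ≤ ‖x‖ → Φ (x, y x) = c) → Ho α (Λ + ‖c‖) fun x => Φ (x, y x)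

/-- **NHO**: the Hölder estimate under natural growth -/
def NHO : Prop := ∀ (n : ℕ) (Λ K : ℝ), 3 ≤ n → ∃ θ ∈ Ioo (0 : ℝ) 1, ∃ C : ℝ,
  ∀ (a : E n → Mx n) (v : E n → ℝ), ContDiff ℝ 1 a → ContDiff ℝ 2 v →
    (∀ x, El Λ (a x) ∧ |v x| ≤ K ∧ (∀ i j k, |pd k (fun z => a z i j) x| ≤ Λ * (1 + ‖D1 v x‖)) ∧
      |pr2 (a x) (D2 v x)| ≤ Λ * (1 + e2 (D1 v x))) → Ho θ C v

/-- **NQ1**: the structure conditions of the principle of Leray and Schauder -/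
def NQ1 : Prop := ForP fun _ _ Q => ∀ l α : ℝ, 0 ≤ l → 0 < α → α ≤ Q.β →
  (∃ M, ∀ σ ∈ Icc (0 : ℝ) 1, ∀ v, (∃ A, C2H α A v) → Tendsto v (cocompact _) (𝓝 0) →
    Q.Eqn l σ v → Ho α M (J1 v)) → Ql Q.Λ Q.ρ l α (Q.c l) Q.aj Q.bj

/-- **NQ2**: the a priori estimate -/
def NQ2 : Prop := ForP fun _ _ Q => ∀ l K : ℝ, 0 ≤ l → ∃ α > (0 : ℝ), α ≤ Q.β ∧ ∃ M,
  ∀ σ ∈ Icc (0 : ℝ) 1, ∀ v, Smooth v → (∃ A, C2H α A v) → (∀ x, |v x| ≤ K) → Q.Eqn l σ v →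
    Ho α M (J1 v)

/-- **NQE**: existence -/
def NQE : Prop := ForP fun _ _ Q => (∃ l₁, ∀ l ≥ l₁, ∃ K, ∀ σ ∈ Icc (0 : ℝ) 1, ∀ v, Smooth v →
  Tendsto v (cocompact _) (𝓝 0) → Q.Eqn l σ v → ∀ x, |v x| ≤ K) →
  ∃ l v, Smooth v ∧ Tendsto v (cocompact _) (𝓝 0) ∧ Q.Eqn l 1 v

/-- **MINP**: the minimum principle along the homotopy -/
def MINP : Prop := ∀ (n : ℕ) (U : E n → ℝ) (r ρ Λ : ℝ), 3 ≤ n → 0 < r → r ≤ ρ → Smooth U →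
  (∀ x, 3 / 4 ≤ U x ∧ U x ≤ 9 / 8) → (∀ x, r ≤ ‖x‖ → pr2 (eu n x) (D2 U x) = 0) →
  ∃ l₁ : ℝ, ∀ l ≥ l₁, ∀ σ ∈ Icc (0 : ℝ) 1, ∀ (a : E n → Mx n) (N u : E n → ℝ) (a₀ : ℝ), a₀ ≤ 1 →
    (∀ x, El Λ (a x)) → (∀ x, r ≤ ‖x‖ → a x = eu n x) → Smooth u →
    Tendsto u (cocompact (E n)) (𝓝 1) →
    (∀ x, σ * N x + (1 - σ) * (pr2 (a x) (D2 (fun y => U y * (u y - 1)) x) -
      l * rc ρ x * (U x * (u x - 1))) = 0) →
    (∀ x, ‖x‖ ≤ r → IsLocalMin u x → u x < a₀ → 0 < N x) →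
    (∀ x, r ≤ ‖x‖ → u x < a₀ → pr2 (eu n x) (D2 (fun y => U y * (u y - 1)) x) ≤ N x) →
    ∀ x, a₀ ≤ u x

/-! ### the operator -/

/-- a positive function which is the identity on `[1 / 2, ∞)` -/
def Tr (z : ℝ) : ℝ :=
  Real.smoothTransition (4 * z - 1) * z + (1 - Real.smoothTransition (4 * z - 1))

/-- the operator -/
def nu (g : Field n) (φ : ℝ → ℝ) (f Λ u : E n → ℝ) (x : E n) : ℝ :=
  4 * gam n * lap (gb g (fun y => φ (u y)) f) u x -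
    (scal (gb g (fun y => φ (u y)) f) x - Λ x) * Tr (u x)

/-- the principal part -/
def aa (g : Field n) (φ : ℝ → ℝ) (x : E n) (p : Vc n) (z : ℝ) : Mx n := fun i j =>
  4 * gam n * (up g i j x - φ z ^ 2 * rs g x p i * rs g x p j / (1 + φ z ^ 2 * sq g x p)) +
    2 * Tr z * φ z * deriv φ z * (sq g x p * up g i j x - rs g x p i * rs g x p j) /
      (1 + φ z ^ 2 * sq g x p)

/-- the terms of lower order, as a function of the scalar invariants -/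
def bp (γ T φ φ₁ φ₂ R s L SS Sf n₁ Rf t r m : ℝ) : ℝ :=
  T * (R + ((φ * L + 2 * φ₁ * t) ^ 2 - φ ^ 2 * SS - 4 * φ * φ₁ * r - 2 * φ₁ ^ 2 * m * s -
        2 * φ₁ ^ 2 * t ^ 2) / (1 + φ ^ 2 * s) -
      2 * φ * (φ * Rf + φ₂ * (s * m - t ^ 2)) / (1 + φ ^ 2 * s) -
      2 * φ ^ 2 * (φ * φ₁ * s * (L * t - 2 * r) + φ ^ 2 * (L * Sf - n₁) +
        φ₁ ^ 2 * s * (t ^ 2 - s * m) + φ * φ₁ * t * Sf) / (1 + φ ^ 2 * s) ^ 2) -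
    4 * γ * ((φ * φ₁ * (s * m - 2 * t ^ 2) - φ ^ 2 * t * L) / (1 + φ ^ 2 * s) +
      (φ ^ 3 * φ₁ * s * t ^ 2 + φ ^ 4 * t * Sf) / (1 + φ ^ 2 * s) ^ 2)

/-- the terms of lower order; `p`, `S` are the differential and the Hessian of `f`, `z`, `q` the
value and the differential of `u` -/
def bx (g : Field n) (φ : ℝ → ℝ) (x : E n) (p : Vc n) (S : Mx n) (Λ z : ℝ) (q : Vc n) : ℝ :=
  bp (gam n) (Tr z) (φ z) (deriv φ z) (deriv (deriv φ) z) (scal g x - Λ) (sq g x p)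
    (∑ i, ∑ j, up g i j x * S i j)
    (∑ i, ∑ j, ∑ k, ∑ l, up g i k x * up g j l x * S i j * S k l)
    (∑ i, ∑ j, S i j * rs g x p i * rs g x p j)
    (∑ i, ∑ j, S i j * (∑ a, ∑ b, up g i a x * S a b * rs g x p b) * rs g x p j)
    (∑ i, ∑ j, C.rc g x i j * rs g x p i * rs g x p j)
    (∑ i, ∑ j, up g i j x * p i * q j) (∑ i, ∑ j, S i j * rs g x q i * rs g x p j) (sq g x q)

/-- **EXP1**: the operator is quasilinear -/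
def EXP1 : Prop := ∀ (n : ℕ) (g : Field n) (φ : ℝ → ℝ) (f Λ u : E n → ℝ), Met g →
  ContDiff ℝ ∞ φ → (∀ z, 0 < φ z) → Smooth f → Smooth u → ∀ x,
    nu g φ f Λ u x = pr2 (aa g φ x (D1 f x) (u x)) (hess g u x) -
      bx g φ x (D1 f x) (hess g f x) (Λ x) (u x) (D1 u x)

/-- the prescribed curvature -/
def La {m : ℕ} (θ : Fin m → ℝ → ℝ) (lm : Fin m → ℝ) (z : ℝ) : ℝ := ∑ k, lm k * θ k z

/-- the normalisation -/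
def ka (U : E n → ℝ) (x : E n) : ℝ := U x ^ (2 * bb n) / (4 * gam n)

/-- the principal part for the unknown `v = U (u - 1)` -/
def av (g : Field n) (U : E n → ℝ) (φ : ℝ → ℝ) (w : E n × Vc n × ℝ) : Mx n := fun i j =>
  ka U w.1 * aa g φ w.1 w.2.1 (1 + w.2.2 / U w.1) i j

/-- the differential of `u` -/
def qv (U : E n → ℝ) (x : E n) (y : ℝ) (q : Vc n) : Vc n := fun i =>
  (q i - y / U x * pd i U x) / U x

/-- the right hand side for the unknown `v = U (u - 1)` -/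
def bv (g : Field n) (U : E n → ℝ) (φ : ℝ → ℝ) {m : ℕ} (θ : Fin m → ℝ → ℝ)
    (w : E n × (Vc n × Mx n × (Fin m → ℝ)) × ℝ) (q : Vc n) : ℝ :=
  ka U w.1 * U w.1 * bx g φ w.1 w.2.1.1
      (fun i j => w.2.1.2.1 i j - ∑ k, chr g k i j w.1 * w.2.1.1 k)
      (La θ w.2.1.2.2 (1 + w.2.2 / U w.1)) (1 + w.2.2 / U w.1) (qv U w.1 w.2.2 q) +
    pr2 (av g U φ (w.1, w.2.1.1, w.2.2)) fun i j =>
      U w.1 * ∑ k, chr g k i j w.1 * qv U w.1 w.2.2 q k + pd i U w.1 * qv U w.1 w.2.2 q j +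
        pd j U w.1 * qv U w.1 w.2.2 q i + w.2.2 / U w.1 * D2 U w.1 i j

/-- **JET**: the right hand side is a quadratic polynomial with smooth coefficients -/
def JET : Prop := ∀ (n m : ℕ) (g : Field n) (U : E n → ℝ) (φ : ℝ → ℝ) (θ : Fin m → ℝ → ℝ),
  Met g → Smooth U → (∀ x, 0 < U x) → ContDiff ℝ ∞ φ → (∀ k, ContDiff ℝ ∞ (θ k)) →
  ContDiff ℝ ∞ (av g U φ) ∧
    ∃ B : E n × (Vc n × Mx n × (Fin m → ℝ)) × ℝ → ℝ × Vc n × Mx n, ContDiff ℝ ∞ B ∧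
      ∀ w q, qd (B w) q = bv g U φ θ w q

/-- **CHG**: the change of the unknown -/
def CHG : Prop := ∀ (n m : ℕ) (g : Field n) (U : E n → ℝ) (φ : ℝ → ℝ) (θ : Fin m → ℝ → ℝ)
  (f v : E n → ℝ) (lm : E n → Fin m → ℝ), Met g → Smooth U → (∀ x, 0 < U x) → ContDiff ℝ ∞ φ →
  (∀ z, 0 < φ z) → Smooth f → Smooth v → ∀ x,
    pr2 (av g U φ (x, D1 f x, v x)) (D2 v x) -
        bv g U φ θ (x, (D1 f x, D2 f x, lm x), v x) (D1 v x) =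
      ka U x * U x * nu g φ f (fun y => La θ (lm y) (1 + v y / U y)) (fun y => 1 + v y / U y) x

/-- the bounds of the warping function -/
def Wb (φ : ℝ → ℝ) : Prop := ∃ c > (0 : ℝ), ∃ C : ℝ, ∀ z, c ≤ φ z ∧ φ z ≤ C ∧ 0 ≤ deriv φ z ∧
  Tr z * deriv φ z ≤ C

/-- **ELL**: ellipticity -/
def ELL : Prop := ∀ (n : ℕ) (X : Dat n) (φ : ℝ → ℝ) (A : ℝ), X.Ok → Wb φ →
  (∃ Λ, ∀ x p y, ‖p‖ ≤ A → El Λ (av X.g X.U φ (x, p, y))) ∧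
    ∀ x y, X.ρ ≤ ‖x‖ → av X.g X.U φ (x, 0, y) = eu n x

/-- **FARL**: the operator outside the ball of radius `ρ` -/
def FARL : Prop := ∀ (n : ℕ) (X : Dat n) (φ : ℝ → ℝ) (f Λ u : E n → ℝ), X.Ok → Smooth u →
  (∀ x, X.R + 6 ≤ ‖x‖ → f x = 0) → ∀ x, X.ρ ≤ ‖x‖ → pr2 (eu n x) (D2 X.U x) = 0 ∧
    D1 f x = 0 ∧ D2 f x = 0 ∧ scal X.g x = 0 ∧ scal (gb X.g (fun y => φ (u y)) f) x = 0 ∧
    ka X.U x * X.U x * nu X.g φ f Λ u x =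
      pr2 (eu n x) (D2 (fun y => X.U y * (u y - 1)) x) + ka X.U x * X.U x * (Λ x * Tr (u x))

/-- the data of the equation for `u` -/
structure Ud (X : Dat n) (φ : ℝ → ℝ) {m : ℕ} (θ : Fin m → ℝ → ℝ) (ft : (E n → ℝ) → E n → ℝ)
    (lm : (E n → ℝ) → E n → Fin m → ℝ) (β A a b : ℝ) : Prop where
  smφ : ContDiff ℝ ∞ φ
  wb : Wb φ
  smθ : ∀ k, ContDiff ℝ ∞ (θ k)
  β0 : β ∈ Ioo (0 : ℝ) 1
  ab : 1 / 2 ≤ a ∧ a ≤ 1 ∧ 1 ≤ b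
  smf : ∀ h, Continuous h → Smooth (ft h)
  f0 : ∀ h, Continuous h → ∀ x, X.R + 6 ≤ ‖x‖ → ft h x = 0
  n1 : Nl X.ρ β A fun h => D1 (ft h)
  n2 : Nl X.ρ β A fun h => D2 (ft h)
  n3 : Nl X.ρ β A lm
  lo : ∀ u, Smooth u → ∀ x, ‖x‖ ≤ X.ρ → IsLocalMin u x → u x < a →
    scal (gb X.g (fun y => φ (u y)) (ft u)) x < La θ (lm u x) (u x)
  hi : ∀ u, Smooth u → ∀ x, ‖x‖ ≤ X.ρ → IsLocalMax u x → b < u x →
    La θ (lm u x) (u x) < scal (gb X.g (fun y => φ (u y)) (ft u)) x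
  lo' : ∀ h, Continuous h → ∀ x z, X.ρ ≤ ‖x‖ → z < a → 0 ≤ La θ (lm h x) z
  hi' : ∀ h, Continuous h → ∀ x z, X.ρ ≤ ‖x‖ → b < z → La θ (lm h x) z ≤ 0
  far : ∀ h, Continuous h → ∀ x z, X.ρ + 1 ≤ ‖x‖ → La θ (lm h x) z = 0

/-- **UEX**: the conformal factor exists -/
def UEX : Prop := ∀ (n : ℕ) (X : Dat n) (φ : ℝ → ℝ) (m : ℕ) (θ : Fin m → ℝ → ℝ) ft lm
  (β A a b : ℝ), X.Ok → Ud X φ θ ft lm β A a b → ∃ u, Smooth u ∧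
    Tendsto u (cocompact (E n)) (𝓝 1) ∧ (∀ x, a ≤ u x ∧ u x ≤ b) ∧
    ∀ x, cl (gb X.g (fun y => φ (u y)) (ft u)) u x = La θ (lm u x) (u x) * u x

end Vale.Agent.P366Y.F
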