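import Vale.Agent.P366Y.F.Defs
import Vale.Agent.P366Y.J.Defs
import Vale.Agent.P366Y.C.Gb
import Vale.Agent.P366Z.Max

/-!
# P366Y, block F: the existence of the conformal factor (assembly)
-/

open MeasureTheory Metric Filter Topology Set
open scoped ContDiff ENNReal
open Vale.Agent.P366.Stmt Vale.Agent.P366Z

noncomputable section

namespace Vale.Agent.P366Y.F

variable {n : ℕ}

namespace UexH

theorem sm_qd : ContDiff ℝ ∞ fun w : (ℝ × Vc n × Mx n) × Vc n => qd w.1 w.2 := by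
  unfold qd
  fun_prop

theorem qd_smul (c : ℝ) (B : ℝ × Vc n × Mx n) (q : Vc n) : qd (c • B) q = c * qd B q := by
  simp only [qd, Prod.smul_fst, Prod.smul_snd, Pi.smul_apply, smul_eq_mul, mul_add, Finset.mul_sum,
    mul_assoc]

theorem tr_pos (z : ℝ) : 0 < Tr z := by
  have h0 := Real.smoothTransition.nonneg (4 * z - 1)
  have h1 := Real.smoothTransition.le_one (4 * z - 1)
  unfold Tr
  rcases le_or_gt z (1 / 4) with h | h
  · rw [Real.smoothTransition.zero_of_nonpos (by linarith)]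
    norm_num
  · rcases h0.eq_or_lt with e | e
    · rw [← e]
      norm_num
    · nlinarith

theorem tr_eq {z : ℝ} (h : 1 / 2 ≤ z) : Tr z = z := by
  rw [Tr, Real.smoothTransition.one_of_one_le (by linarith)]
  ring

variable {W W' : Type} [NormedAddCommGroup W] [NormedSpace ℝ W] [NormedAddCommGroup W']
  [NormedSpace ℝ W'] {ρ β A : ℝ}

theorem nl_prod {w : (E n → ℝ) → E n → W} {w' : (E n → ℝ) → E n → W'} (h : Nl ρ β A w)
    (h' : Nl ρ β A w') : Nl ρ β A fun f x => (w f x, w' f x) where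
  sm f hf := (h.sm f hf).prodMk (h'.sm f hf)
  ho f hf := ⟨fun x => max_le ((h.ho f hf).1 x) ((h'.ho f hf).1 x),
    fun x y => max_le ((h.ho f hf).2 x y) ((h'.ho f hf).2 x y)⟩
  ct e he :=
    let ⟨d, d0, hd⟩ := h.ct e he
    let ⟨d', d0', hd'⟩ := h'.ct e he
    ⟨min d d', lt_min d0 d0', fun f f' hf hf' k x =>
      max_le (hd f f' hf hf' (fun y hy => (k y hy).trans (min_le_left _ _)) x)
        (hd' f f' hf hf' (fun y hy => (k y hy).trans (min_le_right _ _)) x)⟩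

/-- the function `u` of the unknown `v` -/
abbrev uu (X : Dat n) (v : E n → ℝ) : E n → ℝ := fun y => 1 + v y / X.U y

variable {X : Dat n}

theorem uu_cont (hX : X.Ok) {v : E n → ℝ} (hv : Continuous v) : Continuous (uu X v) :=
  continuous_const.add (hv.div hX.smU.cont fun x => (J.U0 hX x).ne')

theorem uu_sm (hX : X.Ok) {v : E n → ℝ} (hv : Smooth v) : Smooth (uu X v) :=
  contDiff_const.add (ContDiff.div hv hX.smU fun x => (J.U0 hX x).ne')

theorem uu_eq (hX : X.Ok) (v : E n → ℝ) : (fun y => X.U y * (uu X v y - 1)) = v :=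
  funext fun y => by rw [add_sub_cancel_left, mul_div_cancel₀ _ (J.U0 hX y).ne']

theorem uu_lim (hX : X.Ok) {v : E n → ℝ} (hv : Tendsto v (cocompact _) (𝓝 0)) :
    Tendsto (uu X v) (cocompact _) (𝓝 1) := by
  have : Tendsto (fun y => v y / X.U y) (cocompact _) (𝓝 0) := by
    refine squeeze_zero_norm (a := fun y => 2 * ‖v y‖) (fun y => ?_)
      (by simpa using hv.norm.const_mul 2)
    rw [norm_div, Real.norm_of_nonneg (J.U0 hX y).le, div_le_iff₀ (J.U0 hX y)]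
    nlinarith [(hX.Ub y).1, norm_nonneg (v y)]
  simpa using this.const_add 1

theorem nl_uu (hX : X.Ok) {w : (E n → ℝ) → E n → W} (h : Nl X.ρ β A w) :
    Nl (X.ρ + 2) β A fun f => w (uu X f) where
  sm f hf := h.sm _ (uu_cont hX hf)
  ho f hf := h.ho _ (uu_cont hX hf)
  ct e he :=
    let ⟨d, d0, hd⟩ := h.ct e he
    ⟨d / 2, half_pos d0, fun f f' hf hf' k => hd _ _ (uu_cont hX hf) (uu_cont hX hf') fun y hy => by
      rw [add_sub_add_left_eq_sub, ← sub_div, abs_div, abs_of_pos (J.U0 hX y),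
        div_le_iff₀ (J.U0 hX y)]
      nlinarith [(hX.Ub y).1, k y (by linarith)]⟩

theorem d2_neg (v : E n → ℝ) (a : Mx n) (x : E n) :
    pr2 a (D2 (fun y => -v y) x) = -pr2 a (D2 v x) := by
  have e : ∀ j, pd j (fun y => -v y) = fun y => -pd j v y := fun j => funext fun _ => pd_neg j
  simp only [pr2, D2, e, pd_neg, mul_neg, Finset.sum_neg_distrib]

end UexH

open UexH

/-- **NQE** -/
theorem nqe_of (hR : REGQ) (hE : QE) (h1 : NQ1) (h2 : NQ2) : NQE := by
  intro n W _ _ _ Q hQ ⟨l₁, h⟩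
  obtain ⟨l₀, hl⟩ := hE n Q.Λ Q.ρ hQ.dim
  obtain ⟨A₁, n1⟩ := hQ.n1
  obtain ⟨A₂, n2⟩ := hQ.n2
  obtain ⟨l, a0, a1, a2⟩ : ∃ l : ℝ, 0 ≤ l ∧ l₀ ≤ l ∧ l₁ ≤ l :=
    ⟨max 0 (max l₀ l₁), le_max_left _ _, le_max_of_le_right (le_max_left _ _),
      le_max_of_le_right (le_max_right _ _)⟩
  obtain ⟨K, hK⟩ := h l a2
  obtain ⟨α, α0, α1, M, hM⟩ := h2 n W Q hQ l K a0
  have hα : α ∈ Ioo (0 : ℝ) 1 := ⟨α0, α1.trans_lt hQ.β0.2⟩
  have reg : ∀ σ v, (∃ A, C2H α A v) → Q.Eqn l σ v → Smooth v := by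
    rintro σ v ⟨A, hv⟩ e
    have c := hv.1.continuous
    have s1 := n1.sm v c
    have s2 := n2.sm v c
    have s3 : ContDiff ℝ ∞ (rc Q.ρ : E n → ℝ) := J.sm_rc _
    have s4 := hQ.sb
    refine hR n α A v (fun w => Q.a (w.1, Q.w₁ v w.1, w.2.1))
      (fun w => σ * qd (Q.b (w.1, Q.w₂ v w.1, w.2.1)) w.2.2 + (1 - σ) * (l * rc Q.ρ w.1) * w.2.1)
      hα hv (hQ.sa.comp (by fun_prop)) (ContDiff.add (contDiff_const.mul (sm_qd.comp
        (f := fun w : E n × ℝ × Vc n => (Q.b (w.1, Q.w₂ v w.1, w.2.1), w.2.2)) (by fun_prop)))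
        (by fun_prop)) (fun x => ⟨_, hQ.el v c x _⟩) e
  obtain ⟨v, v1, v2, v3⟩ := hl l a1 α hα _ _ _ (h1 n W Q hQ l α a0 α0 α1 ⟨M, fun σ hσ v hv k e =>
    hM σ hσ v (reg σ v hv e) hv (hK σ hσ v (reg σ v hv e) k e) e⟩)
  have e : Q.Eqn l 1 v := fun x => by rw [v3 x]; ring
  exact ⟨l, v, reg 1 v v1 e, v2, e⟩

/-- **UEX** -/
theorem uex_of (hJ : JET) (hC : CHG) (hE : ELL) (hF : FARL) (hM : MINP) (hN : NQE) : UEX := by
  intro n X φ m θ ft lm β A a b hX hU
  have hg := J.mg hX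
  have U0 := J.U0 hX
  have ρ0 : 0 < X.ρ := by linarith [hX.R1, hX.Rρ]
  have γ0 : 0 < gam n := by
    have : (3 : ℝ) ≤ n := by exact_mod_cast hX.dim
    exact div_pos (by linarith) (by linarith)
  obtain ⟨sa, B, sB, hB⟩ := hJ n m X.g X.U φ θ hg hX.smU U0 hU.smφ hU.smθ
  obtain ⟨⟨Λ, el⟩, fa⟩ := hE n X φ A hX hU.wb
  have φ0 : ∀ z, 0 < φ z := fun z =>
    let ⟨_, c0, _, h⟩ := hU.wb
    c0.trans_le (h z).1
  have far := fun (h : E n → ℝ) (hh : Continuous h) L u hu =>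
    hF n X φ (ft h) L u hX hu (hU.f0 h hh)
  have fa' : ∀ h, Continuous h → ∀ x y, X.ρ ≤ ‖x‖ → av X.g X.U φ (x, D1 (ft h) x, y) = eu n x :=
    fun h hh x y hx => by
      rw [(far h hh 0 (fun _ => 1) contDiff_const x hx).2.1]
      exact fa x y hx
  let Q : Pb n (Vc n × Mx n × (Fin m → ℝ)) :=
    ⟨X.ρ + 2, β, Λ, fun h => D1 (ft (uu X h)),
      fun h x => (D1 (ft (uu X h)) x, D2 (ft (uu X h)) x, lm (uu X h) x), av X.g X.U φ,
      fun w => rc (X.ρ + 1) w.1 • B w⟩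
  have hQ : Q.Ok :=
    { dim := hX.dim
      ρ0 := by show 0 < X.ρ + 2; linarith
      β0 := hU.β0
      n1 := ⟨A, nl_uu hX hU.n1⟩
      n2 := ⟨A, nl_uu hX (nl_prod hU.n1 (nl_prod hU.n2 hU.n3))⟩
      lip := ⟨A, fun h hh x i k => ((norm_le_pi_norm (D2 (ft (uu X h)) x k) i).trans
        (norm_le_pi_norm (D2 (ft (uu X h)) x) k)).trans ((hU.n2.ho _ (uu_cont hX hh)).1 x)⟩
      sa := sa
      sb := ((J.sm_rc (X.ρ + 1)).comp contDiff_fst).smul sB
      el := fun h hh x y => el x _ y ((hU.n1.ho _ (uu_cont hX hh)).1 x)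
      fa := fun h hh x y hx => fa' _ (uu_cont hX hh) x y (by linarith [show X.ρ + 2 ≤ ‖x‖ from hx])
      fb := fun h hh x y hx => by
        show rc (X.ρ + 1) x • _ = _
        rw [J.rc_zero (by linarith) (by linarith [show X.ρ + 2 ≤ ‖x‖ from hx]), zero_smul] }
  have k0 : ∀ x, 0 < ka X.U x * X.U x := fun x => mul_pos (div_pos (Real.rpow_pos_of_pos (U0 x) _)
    (mul_pos four_pos γ0)) (U0 x)
  have key : ∀ v, Smooth v → ∀ x, pr2 (Q.aj (J1 v) x) (D2 v x) - Q.bj (J1 v) x =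
      ka X.U x * X.U x * nu X.g φ (ft (uu X v)) (fun y => La θ (lm (uu X v) y) (uu X v y))
        (uu X v) x := fun v hv x => by
    have cu := (uu_sm hX hv).cont
    have e := hC n m X.g X.U φ θ _ v (lm (uu X v)) hg hX.smU U0 hU.smφ φ0 (hU.smf _ cu) hv x
    have e1 : Q.bj (J1 v) x = rc (X.ρ + 1) x * bv X.g X.U φ θ
        (x, (D1 (ft (uu X v)) x, D2 (ft (uu X v)) x, lm (uu X v) x), v x) (D1 v x) := by
      rw [← hB, ← qd_smul]
      rfl
    rw [e1, ← e]
    rcases le_total ‖x‖ (X.ρ + 1) with hx | hx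
    · rw [J.rc_one (by linarith) hx, one_mul]
      rfl
    · have e2 := (far _ cu (fun y => La θ (lm (uu X v) y) (uu X v y)) _ (uu_sm hX hv) x
        (by linarith)).2.2.2.2.2
      rw [hU.far _ cu x _ hx, zero_mul, mul_zero, add_zero, uu_eq hX, ← e,
        fa' _ cu x _ (by linarith), sub_eq_self] at e2
      rw [e2, mul_zero]
      rfl
  obtain ⟨l₁, hl⟩ := hM n X.U X.ρ (X.ρ + 2) Λ hX.dim ρ0 (by linarith) hX.smU hX.Ub fun x hx =>
    (far 0 continuous_const 0 (fun _ => 1) contDiff_const x hx).1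
  have bd : ∀ l ≥ l₁, ∀ σ ∈ Icc (0 : ℝ) 1, ∀ v, Smooth v → Tendsto v (cocompact _) (𝓝 0) →
      Q.Eqn l σ v → ∀ x, a ≤ uu X v x ∧ uu X v x ≤ b := by
    intro l hl₁ σ hσ v hv lim e
    have su := uu_sm hX hv
    have cu := su.cont
    have mb : Met (gb X.g (fun y => φ (uu X v y)) (ft (uu X v))) :=
      (C.gb_ n X.g _ _ hg (hU.smφ.comp su) (hU.smf _ cu)).1
    have e0 : ∀ x, σ * (ka X.U x * X.U x * nu X.g φ (ft (uu X v))
        (fun y => La θ (lm (uu X v) y) (uu X v y)) (uu X v) x) +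
        (1 - σ) * (pr2 (Q.aj (J1 v) x) (D2 v x) - l * rc (X.ρ + 2) x * v x) = 0 := fun x => by
      rw [← key v hv x]
      have := e x
      simp only [Pb.c] at this
      linear_combination this
    have el' : ∀ x, El Λ (Q.aj (J1 v) x) := fun x => hQ.el v hv.cont x _
    have fa'' : ∀ x, X.ρ ≤ ‖x‖ → Q.aj (J1 v) x = eu n x := fun x hx => fa' _ cu x _ hx
    have ev := congrFun (uu_eq hX v)
    have lo := hl l hl₁ σ hσ _ _ (uu X v) a hU.ab.2.1 el' fa'' su (uu_lim hX lim)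
      (fun x => by rw [uu_eq hX, ev x]; exact e0 x) (fun x hx h1 h2 => by
        have p := (ptm n _ (fun _ => 1) (fun y => -uu X v y) x mb contDiff_const (su.c2 x).neg
          h1.neg).2
        rw [wl_one, lap_neg] at p
        have p1 := mul_pos (sub_pos.2 (hU.lo _ su x hx h1 h2)) (tr_pos (uu X v x))
        have p2 := mul_nonneg γ0.le (neg_nonpos.1 p)
        refine mul_pos (k0 x) ?_
        unfold nu
        linarith) fun x hx h2 => by
        rw [(far _ cu _ _ su x hx).2.2.2.2.2]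
        exact le_add_of_nonneg_right (mul_nonneg (k0 x).le
          (mul_nonneg (hU.lo' _ cu x _ hx h2) (tr_pos _).le))
    have en : (fun y => X.U y * (2 - uu X v y - 1)) = fun y => -v y :=
      funext fun y => by rw [← ev y]; ring
    have hi := hl l hl₁ σ hσ _ (fun x => -(ka X.U x * X.U x * nu X.g φ (ft (uu X v))
      (fun y => La θ (lm (uu X v) y) (uu X v y)) (uu X v) x)) (fun y => 2 - uu X v y) (2 - b)
      (by linarith [hU.ab.2.2]) el' fa'' (contDiff_const.sub su)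
      (by simpa [show (2 : ℝ) - 1 = 1 by norm_num] using (uu_lim hX lim).const_sub 2)
      (fun x => by
        rw [en, d2_neg, congrFun en x]
        linear_combination -e0 x) (fun x hx h1 h2 => by
        have h3 : IsLocalMax (uu X v) x := h1.mono fun y k => by linarith
        have p := (ptm n _ (fun _ => 1) _ x mb contDiff_const (su.c2 x) h3).2
        rw [wl_one] at p
        have p1 := mul_pos (sub_pos.2 (hU.hi _ su x hx h3 (by linarith))) (tr_pos (uu X v x))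
        have p2 := mul_nonpos_of_nonneg_of_nonpos γ0.le p
        refine neg_pos.2 (mul_neg_of_pos_of_neg (k0 x) ?_)
        unfold nu
        linarith) fun x hx h2 => by
        rw [(far _ cu _ _ su x hx).2.2.2.2.2, en, d2_neg, uu_eq hX]
        have := mul_nonneg (k0 x).le (mul_nonneg (neg_nonneg.2
          (hU.hi' _ cu x (uu X v x) hx (by linarith))) (tr_pos (uu X v x)).le)
        linarith
    exact fun x => ⟨lo x, by linarith [hi x]⟩
  obtain ⟨l, v, v1, v2, v3⟩ := hN n _ Q hQ ⟨l₁, fun l hl₁ => ⟨2 * b, fun σ hσ v hv lim e x => by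
    obtain ⟨h1, h2⟩ := bd l hl₁ σ hσ v hv lim e x
    obtain ⟨h3, h4, h5⟩ := hU.ab
    rw [← congrFun (uu_eq hX v) x, abs_mul, abs_of_pos (U0 x)]
    exact mul_le_mul (by linarith [(hX.Ub x).2]) (abs_le.2 ⟨by linarith, by linarith⟩)
      (abs_nonneg _) two_pos.le⟩⟩
  have v4 : Q.Eqn l₁ 1 v := fun x => by rw [v3 x]; ring
  have v5 := bd l₁ le_rfl 1 ⟨zero_le_one, le_rfl⟩ v v1 v2 v4
  refine ⟨uu X v, uu_sm hX v1, uu_lim hX v2, v5, fun x => ?_⟩
  have e := key v v1 x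
  rw [v3 x, show ∀ s t u : ℝ, 1 * s + (1 - 1) * t * u - s = 0 from fun _ _ _ => by ring] at e
  have e1 := (mul_eq_zero.1 e.symm).resolve_left (k0 x).ne'
  rw [nu, tr_eq (hU.ab.1.trans (v5 x).1)] at e1
  rw [cl]
  linear_combination -e1

end Vale.Agent.P366Y.F
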